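import Mathlib

namespace Vale.Agent.P047

open Finset Polynomial Polynomial.Chebyshev

/-- the polynomial `(X^2 - 1) U_{2k}` -/
noncomputable def Om (k : ℕ) : ℝ[X] := (X ^ 2 - C 1) * U ℝ ((2 * k : ℕ) : ℤ)

theorem eval_Om_cos (k : ℕ) (θ : ℝ) :
    (Om k).eval (Real.cos θ) = -Real.sin θ * Real.sin ((2 * k + 1) * θ) := by
  unfold Om
  have h := U_real_cos θ ((2 * k : ℕ) : ℤ)
  push_cast at h
  rw [eval_mul]
  simp only [eval_sub, eval_pow, eval_X, eval_C]
  have h2 : Real.cos θ ^ 2 - 1 = -Real.sin θ * Real.sin θ := by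
    have := Real.sin_sq_add_cos_sq θ
    nlinarith
  push_cast
  rw [h2, ← h]
  ring

theorem eval_Om_node (k i : ℕ) : (Om k).eval (node (2 * k + 1) i) = 0 := by
  unfold node
  rw [eval_Om_cos]
  have : (2 * (k : ℝ) + 1) * ((i : ℝ) * Real.pi / ((2 * k + 1 : ℕ) : ℝ)) = i * Real.pi := by
    push_cast
    field_simp
  rw [this, Real.sin_nat_mul_pi]
  simp

theorem Om_eq (k : ℕ) :
    Om k = C (2 ^ (2 * k)) * Lagrange.nodal (range (2 * k + 1 + 1)) (fun i => node (2 * k + 1) i) := by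
  have hdeg : (Om k).degree = ((2 * k + 1 + 1 : ℕ) : WithBot ℕ) := by
    unfold Om
    rw [degree_mul, degree_X_pow_sub_C (by norm_num), degree_U_natCast]
    norm_cast
    ring_nf
  have hc : (2 : ℝ) ^ (2 * k) ≠ 0 := by positivity
  apply eq_of_degree_le_of_eval_index_eq (range (2 * k + 1 + 1))
    (strictAntiOn_node (2 * k + 1)).injOn
  · rw [hdeg, card_range]
  · rw [hdeg, degree_C_mul hc, Lagrange.degree_nodal, card_range]
  · unfold Om
    rw [leadingCoeff_mul, leadingCoeff_U_natCast, leadingCoeff_mul, leadingCoeff_C,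
      (Lagrange.nodal_monic).leadingCoeff, (monic_X_pow_sub_C (1 : ℝ) (by norm_num)).leadingCoeff]
    ring
  · intro i hi
    rw [eval_Om_node, eval_mul, Lagrange.eval_nodal_at_node hi]
    simp

theorem eval_Om_zero (k : ℕ) : (Om k).eval 0 = -(-1) ^ k := by
  unfold Om
  rw [eval_mul]
  have : (U ℝ ((2 * k : ℕ) : ℤ)).eval 0 = (-1) ^ k := by
    have h := U_eval_two_mul_zero ℝ (k : ℤ)
    push_cast
    rw [h]
    simp [Int.negOnePow_def]
  rw [this]
  simp

theorem eval_derivative_Om (k : ℕ) (x : ℝ) :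
    (derivative (Om k)).eval x = x * (U ℝ ((2 * k : ℕ) : ℤ)).eval x
      + (2 * k + 1) * (T ℝ ((2 * k + 1 : ℕ) : ℤ)).eval x := by
  have h := congrArg (eval x) (add_one_mul_T_eq_poly_in_U (R := ℝ) ((2 * k : ℕ) : ℤ))
  simp only [eval_mul, eval_add, eval_sub, eval_one, eval_pow, eval_X, eval_intCast] at h
  unfold Om
  simp only [derivative_mul, derivative_sub, derivative_pow, derivative_X, derivative_C,
    eval_add, eval_mul, eval_sub, eval_pow, eval_X, eval_C]
  push_cast at h ⊢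
  rw [eval_one, eval_zero, h]
  ring

theorem eval_U_node (k i : ℕ) (h0 : 0 < i) (h1 : i < 2 * k + 1) :
    (U ℝ ((2 * k : ℕ) : ℤ)).eval (node (2 * k + 1) i) = 0 := by
  unfold node
  have h := U_real_cos ((i : ℝ) * Real.pi / ((2 * k + 1 : ℕ) : ℝ)) ((2 * k : ℕ) : ℤ)
  have h2 : (((2 * k : ℕ) : ℤ) + 1 : ℝ) * ((i : ℝ) * Real.pi / ((2 * k + 1 : ℕ) : ℝ))
      = i * Real.pi := by
    push_cast
    field_simp
  rw [h2, Real.sin_nat_mul_pi] at h
  have hs : Real.sin ((i : ℝ) * Real.pi / ((2 * k + 1 : ℕ) : ℝ)) ≠ 0 := by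
    apply ne_of_gt
    apply Real.sin_pos_of_pos_of_lt_pi
    · positivity
    · rw [div_lt_iff₀ (by positivity)]
      have : (i : ℝ) < ((2 * k + 1 : ℕ) : ℝ) := by exact_mod_cast h1
      nlinarith [Real.pi_pos]
  exact (mul_eq_zero.mp h).resolve_right hs

/-- product of the nodal polynomial at zero and the barycentric weight of an interior node -/
theorem nodal_zero_mul_weight (k i : ℕ) (h0 : 0 < i) (h1 : i < 2 * k + 1) :
    (Lagrange.nodal (range (2 * k + 1 + 1)) (fun i => node (2 * k + 1) i)).eval 0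
      * Lagrange.nodalWeight (range (2 * k + 1 + 1)) (fun i => node (2 * k + 1) i) i
      = -(-1) ^ k * (-1) ^ i / (2 * k + 1) := by
  have hc : (2 : ℝ) ^ (2 * k) ≠ 0 := by positivity
  have hi : i ∈ range (2 * k + 1 + 1) := by simp; omega
  rw [Lagrange.nodalWeight_eq_eval_derivative_nodal hi]
  have hN0 := congrArg (eval 0) (Om_eq k)
  rw [eval_mul, eval_C, eval_Om_zero] at hN0
  have hN1 := congrArg (fun p => eval (node (2 * k + 1) i) (derivative p)) (Om_eq k)
  simp only [derivative_mul, derivative_C, zero_mul, zero_add, eval_mul, eval_C] at hN1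
  rw [eval_derivative_Om, eval_U_node k i h0 h1, eval_T_real_node (by simp; omega)] at hN1
  obtain ⟨a, ha⟩ : ∃ a, a = (Lagrange.nodal (range (2 * k + 1 + 1))
    (fun i => node (2 * k + 1) i)).eval 0 := ⟨_, rfl⟩
  obtain ⟨b, hb⟩ : ∃ b, b = eval (node (2 * k + 1) i) (derivative (Lagrange.nodal
    (range (2 * k + 1 + 1)) (fun i => node (2 * k + 1) i))) := ⟨_, rfl⟩
  rw [← ha] at hN0 ⊢
  rw [← hb] at hN1 ⊢
  have hpow : ((-1 : ℝ) ^ i) * (-1) ^ i = 1 := by rw [← mul_pow]; simp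
  have hk : (2 * (k : ℝ) + 1) ≠ 0 := by positivity
  have hb0 : b ≠ 0 := by
    intro hb0
    rw [hb0] at hN1
    simp at hN1
    exact hk hN1
  have ha' : a = -(-1) ^ k / 2 ^ (2 * k) := by field_simp; linarith
  have hb' : b = (2 * k + 1) * (-1) ^ i / 2 ^ (2 * k) := by field_simp; linarith
  rw [ha', hb']
  field_simp
  rw [sq, hpow]

end Vale.Agent.P047
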