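import Mathlib
import Vale.Agent.P047.Interp

namespace Vale.Agent.P047

open Finset Polynomial Polynomial.Chebyshev

theorem node_ne_zero (k i : ℕ) (hi : i ≤ 2 * k + 1) : node (2 * k + 1) i ≠ 0 := by
  intro h
  have h1 := eval_T_real_node (n := 2 * k + 1) (i := i) (by simpa using hi)
  rw [h, T_eval_zero_of_odd ℝ (by exact_mod_cast (odd_two_mul_add_one k))] at h1
  have : ((-1 : ℝ) ^ i) ≠ 0 := by positivity
  exact this h1.symm

theorem coeff_one_formula (k : ℕ) (Q : ℝ[X]) (hdeg : Q.degree ≤ ((2 * k + 1 : ℕ) : WithBot ℕ))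
    (h0 : Q.coeff 0 = 0) :
    Q.coeff 1 = (Lagrange.nodal (range (2 * k + 1 + 1)) (fun i => node (2 * k + 1) i)).eval 0
      * ∑ i ∈ range (2 * k + 1 + 1),
        Lagrange.nodalWeight (range (2 * k + 1 + 1)) (fun i => node (2 * k + 1) i) i
          * (0 - node (2 * k + 1) i)⁻¹ * (Q.eval (node (2 * k + 1) i) / node (2 * k + 1) i) := by
  have hvs := (strictAntiOn_node (2 * k + 1)).injOn
  have hr : (divX Q).degree < ((range (2 * k + 1 + 1)).card : WithBot ℕ) := by
    rw [card_range]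
    by_cases hQ : Q = 0
    · subst hQ
      simp
      exact WithBot.bot_lt_coe _
    · calc (divX Q).degree < Q.degree := degree_divX_lt hQ
        _ ≤ ((2 * k + 1 : ℕ) : WithBot ℕ) := hdeg
        _ ≤ ((2 * k + 1 + 1 : ℕ) : WithBot ℕ) := by exact_mod_cast Nat.le_succ _
  have h1 := Lagrange.eq_interpolate hvs hr
  have h2 : (divX Q).eval 0 = Q.coeff 1 := by
    rw [← coeff_zero_eq_eval_zero, coeff_divX]
  rw [← h2, h1, Lagrange.eval_interpolate_not_at_node]
  · congr 1
    apply Finset.sum_congr rfl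
    intro i hi
    congr 1
    have hne := node_ne_zero k i (by simp at hi; omega)
    have h3 := congrArg (eval (node (2 * k + 1) i)) (divX_mul_X_add Q)
    rw [h0] at h3
    simp at h3
    rw [← h3]
    field_simp
  · intro i hi
    exact (node_ne_zero k i (by simp at hi; omega)).symm

theorem coeff_one_T (k : ℕ) : (T ℝ ((2 * k + 1 : ℕ) : ℤ)).coeff 1 = (2 * k + 1) * (-1) ^ k := by
  have h : (derivative (T ℝ ((2 * k + 1 : ℕ) : ℤ))).coeff 0
      = (T ℝ ((2 * k + 1 : ℕ) : ℤ)).coeff 1 := by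
    rw [coeff_derivative]
    simp
  rw [← h, T_derivative_eq_U, coeff_zero_eq_eval_zero, eval_mul]
  have h2 : (((2 * k + 1 : ℕ) : ℤ) - 1) = 2 * (k : ℤ) := by push_cast; ring
  rw [h2, U_eval_two_mul_zero]
  simp [Int.negOnePow_def]

/-- positive normalised weights -/
noncomputable def ww (k i : ℕ) : ℝ :=
  (-1) ^ i * Lagrange.nodalWeight (range (2 * k + 1 + 1)) (fun i => node (2 * k + 1) i) i
    / node (2 * k + 1) i ^ 2

theorem ww_nonneg (k i : ℕ) (hi : i ≤ 2 * k + 1) : 0 ≤ ww k i := by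
  unfold ww
  apply div_nonneg _ (sq_nonneg _)
  have h := zero_lt_prod_node_sub_node (n := 2 * k + 1) hi
  unfold Lagrange.nodalWeight
  rw [Finset.prod_inv_distrib]
  have h2 := inv_pos.mpr h
  rw [mul_inv, ← inv_pow, inv_neg_one] at h2
  exact h2.le

theorem coeff_one_formula' (k : ℕ) (Q : ℝ[X]) (hdeg : Q.degree ≤ ((2 * k + 1 : ℕ) : WithBot ℕ))
    (h0 : Q.coeff 0 = 0) :
    Q.coeff 1 = -(Lagrange.nodal (range (2 * k + 1 + 1)) (fun i => node (2 * k + 1) i)).eval 0
      * ∑ i ∈ range (2 * k + 1 + 1), ww k i * ((-1) ^ i * Q.eval (node (2 * k + 1) i)) := by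
  rw [coeff_one_formula k Q hdeg h0, neg_mul, ← mul_neg, ← Finset.sum_neg_distrib]
  congr 1
  apply Finset.sum_congr rfl
  intro i hi
  have hne := node_ne_zero k i (by simp at hi; omega)
  have hpow : ((-1 : ℝ) ^ i) * (-1) ^ i = 1 := by rw [← mul_pow]; simp
  unfold ww
  field_simp
  rw [sq, hpow]
  ring

theorem abs_nodal_mul_sum_ww (k : ℕ) :
    |(Lagrange.nodal (range (2 * k + 1 + 1)) (fun i => node (2 * k + 1) i)).eval 0|
      * ∑ i ∈ range (2 * k + 1 + 1), ww k i = 2 * k + 1 := by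
  have h := coeff_one_formula' k (T ℝ ((2 * k + 1 : ℕ) : ℤ))
    (by rw [degree_T, Int.natAbs_natCast])
    (by rw [coeff_zero_eq_eval_zero, T_eval_zero_of_odd ℝ
      (by exact_mod_cast (odd_two_mul_add_one k))])
  rw [coeff_one_T] at h
  have h2 : ∑ i ∈ range (2 * k + 1 + 1), ww k i * ((-1) ^ i
      * (T ℝ ((2 * k + 1 : ℕ) : ℤ)).eval (node (2 * k + 1) i))
      = ∑ i ∈ range (2 * k + 1 + 1), ww k i := by
    apply Finset.sum_congr rfl
    intro i hi
    rw [eval_T_real_node (by simp at hi ⊢; omega), ← mul_pow]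
    simp
  rw [h2] at h
  have h3 : 0 ≤ ∑ i ∈ range (2 * k + 1 + 1), ww k i :=
    Finset.sum_nonneg (fun i hi => ww_nonneg k i (by simp at hi; omega))
  have h4 := congrArg abs h
  rw [abs_mul, abs_mul, abs_neg, abs_of_nonneg h3] at h4
  rw [← h4]
  simp
  positivity

theorem abs_nodal_mul_ww (k i : ℕ) (h0 : 0 < i) (h1 : i < 2 * k + 1) :
    |(Lagrange.nodal (range (2 * k + 1 + 1)) (fun i => node (2 * k + 1) i)).eval 0| * ww k i
      = 1 / ((2 * k + 1) * node (2 * k + 1) i ^ 2) := by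
  have h := nodal_zero_mul_weight k i h0 h1
  have hw := ww_nonneg k i h1.le
  rw [← abs_of_nonneg hw, ← abs_mul]
  unfold ww
  rw [mul_div_assoc', mul_left_comm, h, abs_div, abs_mul, abs_div, abs_mul]
  simp
  rw [abs_of_pos (by positivity : (0 : ℝ) < 2 * k + 1)]
  rw [div_eq_mul_inv, mul_comm]

theorem node_mid (k : ℕ) : node (2 * k + 1) k = Real.sin (Real.pi / (2 * (2 * k + 1))) := by
  unfold node
  rw [← Real.cos_pi_div_two_sub]
  congr 1
  push_cast
  field_simp
  ring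

theorem node_mid' (k : ℕ) : node (2 * k + 1) (k + 1) = -Real.sin (Real.pi / (2 * (2 * k + 1))) := by
  rw [← node_mid]
  unfold node
  rw [← Real.cos_pi_sub]
  congr 1
  push_cast
  field_simp
  ring

/-- Refined Bernstein inequality at the origin: if `Q` has degree at most `2k+1`, vanishes at `0`,
is bounded by `1` on `[-1,1]` and by `B` at `± sin (π / (2 (2k+1)))`, then the linear coefficient
of `Q` is at most `(2k+1) - 2 (1 - B) / ((2k+1) sin^2 (π / (2 (2k+1))))`. -/
theorem bernstein_refined (k : ℕ) (hk : 1 ≤ k) (Q : ℝ[X])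
    (hdeg : Q.degree ≤ ((2 * k + 1 : ℕ) : WithBot ℕ)) (h0 : Q.coeff 0 = 0)
    (hb : ∀ x ∈ Set.Icc (-1 : ℝ) 1, |Q.eval x| ≤ 1) (B : ℝ)
    (hB1 : |Q.eval (Real.sin (Real.pi / (2 * (2 * k + 1))))| ≤ B)
    (hB2 : |Q.eval (-Real.sin (Real.pi / (2 * (2 * k + 1))))| ≤ B) :
    Q.coeff 1 ≤ (2 * k + 1)
      - 2 * (1 - B) / ((2 * k + 1) * Real.sin (Real.pi / (2 * (2 * k + 1))) ^ 2) := by
  obtain ⟨N0, hN0⟩ : ∃ N0, N0 = (Lagrange.nodal (range (2 * k + 1 + 1))
    (fun i => node (2 * k + 1) i)).eval 0 := ⟨_, rfl⟩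
  have hf := coeff_one_formula' k Q hdeg h0
  have hs := abs_nodal_mul_sum_ww k
  have hw1 := abs_nodal_mul_ww k k (by omega) (by omega)
  have hw2 := abs_nodal_mul_ww k (k + 1) (by omega) (by omega)
  rw [node_mid] at hw1
  rw [node_mid', neg_sq] at hw2
  rw [← hN0] at hf hs hw1 hw2
  have hbound : ∀ i ∈ range (2 * k + 1 + 1), ww k i * ((-1) ^ i * Q.eval (node (2 * k + 1) i))
      ≤ ww k i - ((if i = k then ww k i * (1 - B) else 0)
          + (if i = k + 1 then ww k i * (1 - B) else 0)) ∧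
      -(ww k i - ((if i = k then ww k i * (1 - B) else 0)
          + (if i = k + 1 then ww k i * (1 - B) else 0)))
      ≤ ww k i * ((-1) ^ i * Q.eval (node (2 * k + 1) i)) := by
    intro i hi
    have hwn := ww_nonneg k i (by simp at hi; omega)
    have habs : |(-1) ^ i * Q.eval (node (2 * k + 1) i)| = |Q.eval (node (2 * k + 1) i)| := by
      rw [abs_mul, abs_pow]; simp
    by_cases h1 : i = k
    · subst h1
      have : ¬ (i = i + 1) := by omega
      simp only [if_true, this, if_false, add_zero]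
      rw [node_mid] at habs ⊢
      have h3 := abs_le.mp (habs.le.trans hB1)
      constructor <;> nlinarith [h3.1, h3.2]
    · by_cases h2 : i = k + 1
      · subst h2
        simp only [h1, if_true, if_false, zero_add]
        rw [node_mid'] at habs ⊢
        have h3 := abs_le.mp (habs.le.trans hB2)
        constructor <;> nlinarith [h3.1, h3.2]
      · simp only [h1, h2, if_false, add_zero, sub_zero]
        have h3 := abs_le.mp (habs.le.trans (hb _ node_mem_Icc))
        constructor <;> nlinarith [h3.1, h3.2]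
  have hsum : ∑ i ∈ range (2 * k + 1 + 1), (ww k i - ((if i = k then ww k i * (1 - B) else 0)
          + (if i = k + 1 then ww k i * (1 - B) else 0)))
      = ∑ i ∈ range (2 * k + 1 + 1), ww k i - (ww k k + ww k (k + 1)) * (1 - B) := by
    rw [Finset.sum_sub_distrib, Finset.sum_add_distrib, Finset.sum_ite_eq', Finset.sum_ite_eq']
    have m1 : k ∈ range (2 * k + 1 + 1) := by simp; omega
    have m2 : k + 1 ∈ range (2 * k + 1 + 1) := by simp; omega
    simp only [m1, m2, if_true]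
    ring
  have hup := Finset.sum_le_sum (fun i hi => (hbound i hi).1)
  have hlo := Finset.sum_le_sum (fun i hi => (hbound i hi).2)
  rw [Finset.sum_neg_distrib] at hlo
  rw [hsum] at hup hlo
  obtain ⟨Sg, hSg⟩ : ∃ Sg, Sg = ∑ i ∈ range (2 * k + 1 + 1),
    ww k i * ((-1) ^ i * Q.eval (node (2 * k + 1) i)) := ⟨_, rfl⟩
  obtain ⟨Z, hZ⟩ : ∃ Z, Z = ∑ i ∈ range (2 * k + 1 + 1), ww k i
    - (ww k k + ww k (k + 1)) * (1 - B) := ⟨_, rfl⟩
  rw [← hSg] at hf hup hlo
  rw [← hZ] at hup hlo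
  have hfin : -N0 * Sg ≤ |N0| * Z := by
    have hZ0 : |Sg| ≤ Z := abs_le.mpr ⟨hlo, hup⟩
    calc -N0 * Sg ≤ |-N0 * Sg| := le_abs_self _
      _ = |N0| * |Sg| := by rw [abs_mul, abs_neg]
      _ ≤ |N0| * Z := mul_le_mul_of_nonneg_left hZ0 (abs_nonneg _)
  rw [hf]
  refine hfin.trans (le_of_eq ?_)
  rw [hZ, mul_sub, hs, ← mul_assoc, mul_add, hw1, hw2]
  ring

end Vale.Agent.P047
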