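import Mathlib

namespace Vale.Agent.P047

open Finset

variable {n : ℕ}

/-- sign of a bit -/
def sg (b : Bool) : ℝ := if b then 1 else -1

theorem sg_true : sg true = 1 := rfl
theorem sg_false : sg false = -1 := by simp [sg]

theorem sg_sq (b : Bool) : sg b * sg b = 1 := by cases b <;> simp [sg]

/-- sum of a product function over the cube -/
theorem sum_prod_cube (g : Fin n → Bool → ℝ) :
    ∑ x : Fin n → Bool, ∏ i, g i (x i) = ∏ i, (g i true + g i false) := by
  have := Finset.prod_univ_sum (fun _ : Fin n => (Finset.univ : Finset Bool)) g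
  rw [Fintype.piFinset_univ] at this
  rw [← this]
  simp

/-- biased product weight -/
noncomputable def wt (t : ℝ) (x : Fin n → Bool) : ℝ := ∏ i, ((1 + t * sg (x i)) / 2)

/-- shifted monomials -/
noncomputable def psi (t : ℝ) (S : Finset (Fin n)) (x : Fin n → Bool) : ℝ :=
  ∏ i ∈ S, (sg (x i) - t)

theorem wt_nonneg {t : ℝ} (h1 : -1 ≤ t) (h2 : t ≤ 1) (x : Fin n → Bool) : 0 ≤ wt t x := by
  apply Finset.prod_nonneg
  intro i _
  cases x i <;> simp [sg] <;> linarith

theorem sum_wt (t : ℝ) : ∑ x : Fin n → Bool, wt t x = 1 := by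
  unfold wt
  rw [sum_prod_cube (fun _ b => (1 + t * sg b) / 2)]
  apply Finset.prod_eq_one
  intro i _
  simp [sg]
  ring

theorem orth (t : ℝ) (S R : Finset (Fin n)) :
    ∑ x : Fin n → Bool, wt t x * (psi t S x * psi t R x)
      = if S = R then (1 - t ^ 2) ^ S.card else 0 := by
  have h : ∀ x : Fin n → Bool, wt t x * (psi t S x * psi t R x)
      = ∏ i, (((1 + t * sg (x i)) / 2) * ((if i ∈ S then (sg (x i) - t) else 1)
          * (if i ∈ R then (sg (x i) - t) else 1))) := by
    intro x
    rw [Finset.prod_mul_distrib, Finset.prod_mul_distrib]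
    unfold wt psi
    congr 1
    congr 1
    · rw [Finset.prod_ite_mem, Finset.univ_inter]
    · rw [Finset.prod_ite_mem, Finset.univ_inter]
  simp_rw [h]
  rw [sum_prod_cube (fun i b => ((1 + t * sg b) / 2) * ((if i ∈ S then (sg b - t) else 1)
          * (if i ∈ R then (sg b - t) else 1)))]
  split_ifs with hSR
  · subst hSR
    have : ∀ i : Fin n, ((1 + t * sg true) / 2 * ((if i ∈ S then sg true - t else 1)
        * if i ∈ S then sg true - t else 1) + (1 + t * sg false) / 2
        * ((if i ∈ S then sg false - t else 1) * if i ∈ S then sg false - t else 1))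
        = if i ∈ S then (1 - t ^ 2) else 1 := by
      intro i
      split_ifs <;> simp [sg] <;> ring
    simp_rw [this]
    rw [Finset.prod_ite_mem, Finset.univ_inter, Finset.prod_const]
  · obtain ⟨i, hi⟩ : ∃ i, ¬ (i ∈ S ↔ i ∈ R) := by
      by_contra hcon
      push Not at hcon
      exact hSR (Finset.ext hcon)
    apply Finset.prod_eq_zero (Finset.mem_univ i)
    by_cases h1 : i ∈ S <;> by_cases h2 : i ∈ R
    · exact absurd (iff_of_true h1 h2) hi
    · simp [h1, h2, sg]; ring
    · simp [h1, h2, sg]; ring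
    · exact absurd (iff_of_false h1 h2) hi

/-- bilinear Parseval identity in the biased basis -/
theorem parseval (t : ℝ) (c e : Finset (Fin n) → ℝ) :
    ∑ x : Fin n → Bool, wt t x * ((∑ S, c S * psi t S x) * (∑ R, e R * psi t R x))
      = ∑ S, c S * e S * (1 - t ^ 2) ^ S.card := by
  have h : ∀ x : Fin n → Bool, wt t x * ((∑ S, c S * psi t S x) * (∑ R, e R * psi t R x))
      = ∑ S, ∑ R, c S * e R * (wt t x * (psi t S x * psi t R x)) := by
    intro x
    rw [Finset.sum_mul_sum, Finset.mul_sum]
    apply Finset.sum_congr rfl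
    intro S _
    rw [Finset.mul_sum]
    apply Finset.sum_congr rfl
    intro R _
    ring
  simp_rw [h]
  rw [Finset.sum_comm]
  apply Finset.sum_congr rfl
  intro S _
  rw [Finset.sum_comm]
  simp_rw [← Finset.mul_sum, orth]
  simp

end Vale.Agent.P047
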