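import Mathlib
import Vale.Agent.P047.Biased

namespace Vale.Agent.P047

open Finset

variable {n : ℕ}

/-- Fourier coefficient (uniform measure) -/
noncomputable def fhat (f : (Fin n → Bool) → ℝ) (S : Finset (Fin n)) : ℝ :=
  (∑ x, f x * ∏ i ∈ S, sg (x i)) / 2 ^ n

theorem prod_one_add_sg (x y : Fin n → Bool) :
    ∏ i, (1 + sg (y i) * sg (x i)) = if y = x then 2 ^ n else 0 := by
  split_ifs with h
  · subst h
    simp [sg_sq]
    norm_num
  · obtain ⟨i, hi⟩ : ∃ i, y i ≠ x i := by
      by_contra hcon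
      push Not at hcon
      exact h (funext hcon)
    apply Finset.prod_eq_zero (Finset.mem_univ i)
    cases hy : y i <;> cases hx : x i <;> simp_all [sg]

/-- Fourier inversion -/
theorem inversion (f : (Fin n → Bool) → ℝ) (x : Fin n → Bool) :
    f x = ∑ R, fhat f R * ∏ i ∈ R, sg (x i) := by
  unfold fhat
  have h1 : ∀ R : Finset (Fin n), (∑ y, f y * ∏ i ∈ R, sg (y i)) / 2 ^ n * ∏ i ∈ R, sg (x i)
      = ∑ y, f y / 2 ^ n * ∏ i ∈ R, (sg (y i) * sg (x i)) := by
    intro R
    rw [Finset.sum_div, Finset.sum_mul]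
    apply Finset.sum_congr rfl
    intro y _
    rw [Finset.prod_mul_distrib]
    ring
  simp_rw [h1]
  rw [Finset.sum_comm]
  simp_rw [← Finset.mul_sum]
  have h2 : ∀ y : Fin n → Bool, ∑ R : Finset (Fin n), ∏ i ∈ R, (sg (y i) * sg (x i))
      = if y = x then 2 ^ n else 0 := by
    intro y
    rw [← prod_one_add_sg, Finset.prod_one_add, Finset.powerset_univ]
  simp_rw [h2]
  simp

/-- coefficients of `f` in the shifted basis -/
noncomputable def cf (f : (Fin n → Bool) → ℝ) (t : ℝ) (S : Finset (Fin n)) : ℝ :=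
  ∑ R, if S ⊆ R then fhat f R * t ^ (R \ S).card else 0

/-- expansion in the shifted basis -/
theorem expansion (f : (Fin n → Bool) → ℝ) (t : ℝ) (x : Fin n → Bool) :
    f x = ∑ S, cf f t S * psi t S x := by
  rw [inversion f x]
  have h1 : ∀ R : Finset (Fin n), ∏ i ∈ R, sg (x i)
      = ∑ S, if S ⊆ R then psi t S x * t ^ (R \ S).card else 0 := by
    intro R
    have : ∏ i ∈ R, sg (x i) = ∏ i ∈ R, ((sg (x i) - t) + t) := by
      apply Finset.prod_congr rfl
      intro i _
      ring
    rw [this, Finset.prod_add]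
    rw [← Finset.sum_filter]
    apply Finset.sum_congr
    · ext S
      simp
    · intro S _
      simp [psi]
  simp_rw [h1, cf, Finset.mul_sum, Finset.sum_mul]
  rw [Finset.sum_comm]
  apply Finset.sum_congr rfl
  intro S _
  apply Finset.sum_congr rfl
  intro R _
  split_ifs <;> ring

theorem cf_eq_zero (f : (Fin n → Bool) → ℝ) (t : ℝ) (d : ℕ)
    (hdeg : ∀ S : Finset (Fin n), d < S.card → fhat f S = 0) (S : Finset (Fin n))
    (hS : d < S.card) : cf f t S = 0 := by
  unfold cf
  apply Finset.sum_eq_zero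
  intro R _
  split_ifs with h
  · rw [hdeg R (lt_of_lt_of_le hS (Finset.card_le_card h))]
    simp
  · rfl

theorem cf_empty (f : (Fin n → Bool) → ℝ) (t : ℝ) :
    cf f t ∅ = ∑ R, fhat f R * t ^ R.card := by
  simp [cf]

theorem sum_cf_singleton (f : (Fin n → Bool) → ℝ) (t : ℝ) :
    ∑ i, cf f t {i} = ∑ R, fhat f R * (R.card * t ^ (R.card - 1)) := by
  unfold cf
  rw [Finset.sum_comm]
  apply Finset.sum_congr rfl
  intro R _
  have : ∀ i : Fin n, (if {i} ⊆ R then fhat f R * t ^ (R \ {i}).card else 0)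
      = if i ∈ R then fhat f R * t ^ (R.card - 1) else 0 := by
    intro i
    by_cases h : i ∈ R
    · simp [h, Finset.card_sdiff_of_subset]
    · simp [h]
  simp_rw [this]
  rw [← Finset.sum_filter]
  simp
  ring

end Vale.Agent.P047
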