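import Mathlib
import Vale.Agent.P047.Expand

namespace Vale.Agent.P047

open Finset

variable {n : ℕ}

theorem psi_update (t : ℝ) (S : Finset (Fin n)) (x : Fin n → Bool) (i : Fin n) (b : Bool) :
    psi t S (Function.update x i b)
      = if i ∈ S then (sg b - t) * psi t (S.erase i) x else psi t S x := by
  unfold psi
  split_ifs with h
  · rw [← Finset.mul_prod_erase S _ h]
    congr 1
    · simp
    · apply Finset.prod_congr rfl
      intro j hj
      rw [Function.update_of_ne (Finset.ne_of_mem_erase hj)]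
  · apply Finset.prod_congr rfl
    intro j hj
    rw [Function.update_of_ne]
    rintro rfl
    exact h hj

/-- the `i`-th Laplacian part of `f` in the shifted basis -/
noncomputable def gi (f : (Fin n → Bool) → ℝ) (t : ℝ) (i : Fin n) (x : Fin n → Bool) : ℝ :=
  ∑ S, (if i ∈ S then cf f t S else 0) * psi t S x

theorem gi_eq (f : (Fin n → Bool) → ℝ) (t : ℝ) (i : Fin n) (x : Fin n → Bool) :
    gi f t i x = (sg (x i) - t)
      * ((f (Function.update x i true) - f (Function.update x i false)) / 2) := by
  rw [expansion f t (Function.update x i true), expansion f t (Function.update x i false)]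
  rw [← Finset.sum_sub_distrib, Finset.sum_div, Finset.mul_sum]
  unfold gi
  apply Finset.sum_congr rfl
  intro S _
  rw [psi_update, psi_update]
  split_ifs with h
  · have : psi t S x = (sg (x i) - t) * psi t (S.erase i) x := by
      unfold psi
      rw [Finset.mul_prod_erase S (fun j => sg (x j) - t) h]
    rw [this, sg_true, sg_false]
    ring
  · ring

theorem pointwise (f : (Fin n → Bool) → ℝ) (hf : ∀ x, f x = 1 ∨ f x = -1) (t : ℝ) (i : Fin n)
    (x : Fin n → Bool) : psi t {i} x * gi f t i x ≤ gi f t i x * gi f t i x := by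
  rw [gi_eq]
  have h1 : psi t {i} x = sg (x i) - t := by simp [psi]
  rw [h1]
  obtain ⟨D, hD⟩ : ∃ D, D = (f (Function.update x i true) - f (Function.update x i false)) / 2 :=
    ⟨_, rfl⟩
  rw [← hD]
  have hD2 : D ≤ D * D := by
    rcases hf (Function.update x i true) with h | h <;>
    rcases hf (Function.update x i false) with h' | h' <;>
    · rw [hD, h, h']; norm_num
  nlinarith [mul_self_nonneg (sg (x i) - t)]

theorem single_ineq (f : (Fin n → Bool) → ℝ) (hf : ∀ x, f x = 1 ∨ f x = -1) (t : ℝ)
    (h1 : -1 ≤ t) (h2 : t ≤ 1) (i : Fin n) :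
    cf f t {i} * (1 - t ^ 2)
      ≤ ∑ S, (if i ∈ S then cf f t S * cf f t S * (1 - t ^ 2) ^ S.card else 0) := by
  have hA := parseval t (fun S : Finset (Fin n) => if S = {i} then (1 : ℝ) else 0)
    (fun S => if i ∈ S then cf f t S else 0)
  have hB := parseval t (fun S : Finset (Fin n) => if i ∈ S then cf f t S else 0)
    (fun S => if i ∈ S then cf f t S else 0)
  have hA' : ∑ S : Finset (Fin n), (if S = {i} then (1 : ℝ) else 0)
      * (if i ∈ S then cf f t S else 0) * (1 - t ^ 2) ^ S.card = cf f t {i} * (1 - t ^ 2) := by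
    rw [Finset.sum_eq_single {i}]
    · simp
    · intro S _ hS
      simp [hS]
    · intro h
      exact absurd (Finset.mem_univ _) h
  have hB' : ∑ S : Finset (Fin n), (if i ∈ S then cf f t S else 0)
      * (if i ∈ S then cf f t S else 0) * (1 - t ^ 2) ^ S.card
      = ∑ S, (if i ∈ S then cf f t S * cf f t S * (1 - t ^ 2) ^ S.card else 0) := by
    apply Finset.sum_congr rfl
    intro S _
    split_ifs <;> ring
  rw [← hA', ← hB', ← hA, ← hB]
  apply Finset.sum_le_sum
  intro x _
  apply mul_le_mul_of_nonneg_left _ (wt_nonneg h1 h2 x)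
  have : ∑ S : Finset (Fin n), (if S = {i} then (1 : ℝ) else 0) * psi t S x = psi t {i} x := by
    simp
  rw [this]
  exact pointwise f hf t i x

theorem total_one (f : (Fin n → Bool) → ℝ) (hf : ∀ x, f x = 1 ∨ f x = -1) (t : ℝ) :
    ∑ S, cf f t S * cf f t S * (1 - t ^ 2) ^ S.card = 1 := by
  rw [← parseval t (cf f t) (cf f t), ← sum_wt (n := n) t]
  apply Finset.sum_congr rfl
  intro x _
  rw [← expansion f t x]
  rcases hf x with h | h <;> rw [h] <;> ring

/-- The biased Poincare-type inequality `(1 - t^2) p'(t) ≤ d (1 - p(t)^2)`. -/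
theorem diff_ineq (f : (Fin n → Bool) → ℝ) (hf : ∀ x, f x = 1 ∨ f x = -1) (d : ℕ)
    (hdeg : ∀ S : Finset (Fin n), d < S.card → fhat f S = 0) (t : ℝ)
    (h1 : -1 ≤ t) (h2 : t ≤ 1) :
    (∑ R, fhat f R * (R.card * t ^ (R.card - 1))) * (1 - t ^ 2)
      ≤ d * (1 - (∑ R, fhat f R * t ^ R.card) ^ 2) := by
  rw [← sum_cf_singleton, ← cf_empty, Finset.sum_mul]
  have hnn : 0 ≤ 1 - t ^ 2 := by nlinarith
  calc ∑ i, cf f t {i} * (1 - t ^ 2)
      ≤ ∑ i, ∑ S, (if i ∈ S then cf f t S * cf f t S * (1 - t ^ 2) ^ S.card else 0) :=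
        Finset.sum_le_sum (fun i _ => single_ineq f hf t h1 h2 i)
    _ = ∑ S : Finset (Fin n), S.card * (cf f t S * cf f t S * (1 - t ^ 2) ^ S.card) := by
        rw [Finset.sum_comm]
        apply Finset.sum_congr rfl
        intro S _
        rw [← Finset.sum_filter]
        simp
    _ ≤ ∑ S : Finset (Fin n), d * (cf f t S * cf f t S * (1 - t ^ 2) ^ S.card
          - if S = ∅ then cf f t ∅ ^ 2 else 0) := by
        apply Finset.sum_le_sum
        intro S _
        by_cases hS : S = ∅
        · subst hS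
          simp
          ring_nf
          exact le_refl _
        · simp only [hS, if_false, sub_zero]
          by_cases hc : d < S.card
          · rw [cf_eq_zero f t d hdeg S hc]
            simp
          · apply mul_le_mul_of_nonneg_right
            · exact_mod_cast not_lt.mp hc
            · exact mul_nonneg (mul_self_nonneg _) (pow_nonneg hnn _)
    _ = d * (1 - cf f t ∅ ^ 2) := by
        rw [← Finset.mul_sum, Finset.sum_sub_distrib, total_one f hf t]
        simp

theorem abs_p_le_one (f : (Fin n → Bool) → ℝ) (hf : ∀ x, f x = 1 ∨ f x = -1) (t : ℝ)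
    (h1 : -1 ≤ t) (h2 : t ≤ 1) : (∑ R, fhat f R * t ^ R.card) ^ 2 ≤ 1 := by
  rw [← cf_empty, ← total_one f hf t]
  have hnn : 0 ≤ 1 - t ^ 2 := by nlinarith
  have := Finset.single_le_sum (f := fun S : Finset (Fin n) =>
    cf f t S * cf f t S * (1 - t ^ 2) ^ S.card)
    (fun S _ => mul_nonneg (mul_self_nonneg _) (pow_nonneg hnn _)) (Finset.mem_univ ∅)
  simpa [sq] using this

end Vale.Agent.P047
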