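import Mathlib

namespace Vale.Agent.P047

open Set

/-- algebraic step -/
theorem alg_step (a b K1 K2 : ℝ) (ha : a ≤ 1) (hb : -1 ≤ b)
    (hK1 : 0 < K1) (hK : K1 ≤ K2)
    (h : (1 + a) * (1 - b) * K1 ^ 2 ≤ (1 - a) * (1 + b) * K2 ^ 2) :
    (a - b) / 2 ≤ (K2 - K1) / (K2 + K1) := by
  obtain ⟨δ, hδ⟩ : ∃ δ, δ = (a - b) / 2 := ⟨_, rfl⟩
  rw [← hδ]
  have hδ1 : δ ≤ 1 := by rw [hδ]; linarith
  have hsq : ((1 + δ) * K1) ^ 2 ≤ ((1 - δ) * K2) ^ 2 := by
    have e1 : ((1 - δ) * K2) ^ 2 - ((1 + δ) * K1) ^ 2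
        = ((1 - a) * (1 + b) * K2 ^ 2 - (1 + a) * (1 - b) * K1 ^ 2)
          + ((a + b) / 2) ^ 2 * (K2 ^ 2 - K1 ^ 2) := by
      rw [hδ]; ring
    have e2 : 0 ≤ K2 ^ 2 - K1 ^ 2 := by nlinarith
    have e3 : 0 ≤ ((a + b) / 2) ^ 2 * (K2 ^ 2 - K1 ^ 2) := mul_nonneg (sq_nonneg _) e2
    linarith
  have hnn : 0 ≤ (1 - δ) * K2 := mul_nonneg (by linarith) (by linarith)
  have hle : (1 + δ) * K1 ≤ (1 - δ) * K2 := (abs_le_of_sq_le_sq' hsq hnn).2
  rw [le_div_iff₀ (by linarith)]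
  linarith

theorem scaled_step (y y' : ℝ → ℝ) (d : ℕ) (hy : ∀ t, HasDerivAt y (y' t) t)
    (H1 : ∀ t, -1 ≤ t → t ≤ 1 → y' t * (1 - t ^ 2) ≤ d * (1 - y t ^ 2))
    (H2 : ∀ t, -1 ≤ t → t ≤ 1 → y t ^ 2 ≤ 1) (τ : ℝ) (h0 : 0 ≤ τ) (h1 : τ < 1)
    (lam : ℝ) (hl0 : 0 < lam) (hl1 : lam < 1) :
    (lam * y τ - lam * y (-τ)) / 2
      ≤ ((1 + τ) ^ d - (1 - τ) ^ d) / ((1 + τ) ^ d + (1 - τ) ^ d) := by
  -- bounds on lam * y
  have hz : ∀ t, -1 ≤ t → t ≤ 1 → -lam ≤ lam * y t ∧ lam * y t ≤ lam := by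
    intro t ht1 ht2
    have := abs_le_of_sq_le_sq' (a := y t) (b := 1) (by simpa using H2 t ht1 ht2) (by norm_num)
    constructor <;> nlinarith [this.1, this.2]
  obtain ⟨G, hG⟩ : ∃ G : ℝ → ℝ, G = fun t => Real.log (1 + lam * y t) - Real.log (1 - lam * y t)
      - d * Real.log (1 + t) + d * Real.log (1 - t) := ⟨_, rfl⟩
  have hder : ∀ t ∈ Icc (-τ) τ, HasDerivAt G (lam * y' t / (1 + lam * y t)
      - (-(lam * y' t)) / (1 - lam * y t) - d * (1 / (1 + t)) + d * (-1 / (1 - t))) t := by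
    intro t ht
    have ht1 : -1 < t := by linarith [ht.1]
    have ht2 : t < 1 := by linarith [ht.2]
    have hzt := hz t ht1.le ht2.le
    have A := ((hy t).const_mul lam).const_add 1 |>.log (by linarith [hzt.1] : 1 + lam * y t ≠ 0)
    have B := ((hy t).const_mul lam).const_sub 1 |>.log (by linarith [hzt.2] : 1 - lam * y t ≠ 0)
    have C := ((hasDerivAt_id t).const_add 1).log (by simp; linarith : 1 + id t ≠ 0)
    have D := ((hasDerivAt_id t).const_sub 1).log (by simp; linarith : 1 - id t ≠ 0)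
    rw [hG]
    exact ((A.sub B).sub (C.const_mul (d : ℝ))).add (D.const_mul (d : ℝ))
  have hanti : AntitoneOn G (Icc (-τ) τ) := by
    apply antitoneOn_of_deriv_nonpos (convex_Icc _ _)
    · intro t ht
      exact (hder t ht).continuousAt.continuousWithinAt
    · intro t ht
      exact (hder t (interior_subset ht)).differentiableAt.differentiableWithinAt
    · intro t ht
      have ht' := interior_subset ht
      rw [(hder t ht').deriv]
      have ht1 : -1 < t := by linarith [ht'.1]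
      have ht2 : t < 1 := by linarith [ht'.2]
      have hzt := hz t ht1.le ht2.le
      have p1 : 0 < 1 + lam * y t := by linarith [hzt.1]
      have p2 : 0 < 1 - lam * y t := by linarith [hzt.2]
      have p3 : 0 < 1 + t := by linarith
      have p4 : 0 < 1 - t := by linarith
      have key : lam * y' t * (1 - t ^ 2) ≤ d * (1 - (lam * y t) ^ 2) := by
        have e1 := H1 t ht1.le ht2.le
        have e2 := H2 t ht1.le ht2.le
        have e3 : lam * (y' t * (1 - t ^ 2)) ≤ lam * (d * (1 - y t ^ 2)) :=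
          mul_le_mul_of_nonneg_left e1 hl0.le
        have e4 : lam * (1 - y t ^ 2) ≤ 1 - (lam * y t) ^ 2 := by
          have : 0 ≤ (1 - lam) * (1 + lam * y t ^ 2) :=
            mul_nonneg (by linarith) (by positivity)
          nlinarith
        have e5 : (d : ℝ) * (lam * (1 - y t ^ 2)) ≤ d * (1 - (lam * y t) ^ 2) :=
          mul_le_mul_of_nonneg_left e4 (Nat.cast_nonneg d)
        nlinarith
      have e6 : lam * y' t / (1 + lam * y t) - (-(lam * y' t)) / (1 - lam * y t)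
          - d * (1 / (1 + t)) + d * (-1 / (1 - t))
          = 2 * (lam * y' t * (1 - t ^ 2) - d * (1 - (lam * y t) ^ 2))
            / ((1 + lam * y t) * (1 - lam * y t) * ((1 + t) * (1 - t))) := by
        field_simp
        ring
      rw [e6]
      apply div_nonpos_of_nonpos_of_nonneg
      · linarith
      · positivity
  have hle := hanti (left_mem_Icc.mpr (by linarith : -τ ≤ τ)) (right_mem_Icc.mpr (by linarith))
    (by linarith : -τ ≤ τ)
  rw [hG] at hle
  simp only [sub_neg_eq_add] at hle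
  have hza := hz τ (by linarith) h1.le
  have hzb := hz (-τ) (by linarith) (by linarith)
  have q1 : 0 < 1 + lam * y τ := by linarith [hza.1]
  have q2 : 0 < 1 - lam * y τ := by linarith [hza.2]
  have q3 : 0 < 1 + lam * y (-τ) := by linarith [hzb.1]
  have q4 : 0 < 1 - lam * y (-τ) := by linarith [hzb.2]
  have q5 : 0 < 1 + τ := by linarith
  have q6 : 0 < 1 - τ := by linarith
  have e7 : (1 : ℝ) + -τ = 1 - τ := by ring
  rw [e7] at hle
  apply alg_step _ _ _ _ (by linarith [hza.2]) (by linarith [hzb.1]) (by positivity)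
    (pow_le_pow_left₀ q6.le (by linarith) d)
  have hlog : Real.log ((1 + lam * y τ) * (1 - lam * y (-τ)) * ((1 - τ) ^ d) ^ 2)
      ≤ Real.log ((1 - lam * y τ) * (1 + lam * y (-τ)) * ((1 + τ) ^ d) ^ 2) := by
    rw [Real.log_mul (by positivity) (by positivity), Real.log_mul (by positivity) (by positivity),
      Real.log_mul (by positivity) (by positivity), Real.log_mul (by positivity) (by positivity),
      Real.log_pow, Real.log_pow, Real.log_pow, Real.log_pow]
    push_cast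
    linarith
  exact (Real.log_le_log_iff (by positivity) (by positivity)).mp hlog

/-- Integrated form of the differential inequality. -/
theorem ode_bound (y y' : ℝ → ℝ) (d : ℕ) (hy : ∀ t, HasDerivAt y (y' t) t)
    (H1 : ∀ t, -1 ≤ t → t ≤ 1 → y' t * (1 - t ^ 2) ≤ d * (1 - y t ^ 2))
    (H2 : ∀ t, -1 ≤ t → t ≤ 1 → y t ^ 2 ≤ 1) (τ : ℝ) (h0 : 0 ≤ τ) (h1 : τ < 1) :
    (y τ - y (-τ)) / 2 ≤ ((1 + τ) ^ d - (1 - τ) ^ d) / ((1 + τ) ^ d + (1 - τ) ^ d) := by
  obtain ⟨x, hx⟩ : ∃ x, x = (y τ - y (-τ)) / 2 := ⟨_, rfl⟩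
  obtain ⟨B, hB⟩ : ∃ B, B = ((1 + τ) ^ d - (1 - τ) ^ d) / ((1 + τ) ^ d + (1 - τ) ^ d) := ⟨_, rfl⟩
  rw [← hx, ← hB]
  have hB0 : 0 ≤ B := by
    rw [hB]
    apply div_nonneg
    · have := pow_le_pow_left₀ (by linarith : (0 : ℝ) ≤ 1 - τ) (by linarith : 1 - τ ≤ 1 + τ) d
      linarith
    · have : 0 ≤ 1 - τ := by linarith
      positivity
  have hall : ∀ lam : ℝ, 0 < lam → lam < 1 → lam * x ≤ B := by
    intro lam hl0 hl1
    have := scaled_step y y' d hy H1 H2 τ h0 h1 lam hl0 hl1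
    rw [← hB] at this
    rw [hx]
    linarith
  by_contra hcon
  rw [not_le] at hcon
  have hxpos : 0 < x := lt_of_le_of_lt hB0 hcon
  have h3 := hall ((B / x + 1) / 2) (by positivity) (by
    have : B / x < 1 := (div_lt_one hxpos).mpr hcon
    linarith)
  have h4 : (B / x + 1) / 2 * x = (B + x) / 2 := by
    field_simp
  rw [h4] at h3
  linarith

end Vale.Agent.P047
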