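import Mathlib
import Vale.Agent.P047.DiffIneq
import Vale.Agent.P047.Bernstein
import Vale.Agent.P047.Ode

namespace Vale.Agent.P047

open Finset Polynomial

variable {n : ℕ}

/-- the noise polynomial as a function -/
noncomputable def yf (f : (Fin n → Bool) → ℝ) (t : ℝ) : ℝ := ∑ R, fhat f R * t ^ R.card

noncomputable def yf' (f : (Fin n → Bool) → ℝ) (t : ℝ) : ℝ :=
  ∑ R, fhat f R * (R.card * t ^ (R.card - 1))

theorem yf_hasDerivAt (f : (Fin n → Bool) → ℝ) (t : ℝ) : HasDerivAt (yf f) (yf' f t) t := by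
  unfold yf yf'
  have := HasDerivAt.fun_sum (u := (Finset.univ : Finset (Finset (Fin n))))
    (A := fun R t => fhat f R * t ^ R.card)
    (A' := fun R => fhat f R * (R.card * t ^ (R.card - 1))) (x := t)
    (fun R _ => (hasDerivAt_pow R.card t).const_mul (fhat f R))
  exact this

theorem fhat_neg (f : (Fin n → Bool) → ℝ) (R : Finset (Fin n)) :
    fhat (fun x => -f x) R = -fhat f R := by
  unfold fhat
  simp [Finset.sum_neg_distrib, neg_div]

theorem yf_neg (f : (Fin n → Bool) → ℝ) (t : ℝ) : yf (fun x => -f x) t = -yf f t := by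
  unfold yf
  simp [fhat_neg, Finset.sum_neg_distrib]

/-- the odd part of the noise polynomial -/
noncomputable def Qodd (f : (Fin n → Bool) → ℝ) : ℝ[X] :=
  ∑ R : Finset (Fin n), if Odd R.card then C (fhat f R) * X ^ R.card else 0

theorem eval_Qodd (f : (Fin n → Bool) → ℝ) (t : ℝ) :
    (Qodd f).eval t = (yf f t - yf f (-t)) / 2 := by
  unfold Qodd yf
  rw [eval_finsetSum, ← Finset.sum_sub_distrib, Finset.sum_div]
  apply Finset.sum_congr rfl
  intro R _
  split_ifs with h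
  · rw [h.neg_pow]
    simp
  · rw [(Nat.not_odd_iff_even.mp h).neg_pow]
    simp

theorem coeff_zero_Qodd (f : (Fin n → Bool) → ℝ) : (Qodd f).coeff 0 = 0 := by
  rw [coeff_zero_eq_eval_zero, eval_Qodd]
  simp

theorem sum_singletons (g : Finset (Fin n) → ℝ) :
    ∑ R : Finset (Fin n), (if R.card = 1 then g R else 0) = ∑ i, g {i} := by
  rw [← Finset.sum_filter]
  have : (Finset.univ.filter (fun R : Finset (Fin n) => R.card = 1))
      = Finset.univ.map ⟨fun i => {i}, Finset.singleton_injective⟩ := by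
    ext R
    simp [Finset.card_eq_one, eq_comm]
  rw [this, Finset.sum_map]
  rfl

theorem coeff_one_Qodd (f : (Fin n → Bool) → ℝ) : (Qodd f).coeff 1 = ∑ i, fhat f {i} := by
  unfold Qodd
  rw [finsetSum_coeff, ← sum_singletons]
  apply Finset.sum_congr rfl
  intro R _
  by_cases h1 : R.card = 1
  · simp [h1]
  · split_ifs with h
    · rw [coeff_C_mul, coeff_X_pow]
      simp [Ne.symm h1]
    · simp

theorem degree_Qodd (f : (Fin n → Bool) → ℝ) (d k : ℕ) (hd : d ≤ 2 * k + 2)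
    (hdeg : ∀ S : Finset (Fin n), d < S.card → fhat f S = 0) :
    (Qodd f).degree ≤ ((2 * k + 1 : ℕ) : WithBot ℕ) := by
  unfold Qodd
  apply (degree_sum_le _ _).trans
  apply Finset.sup_le
  intro R _
  split_ifs with h
  · by_cases hc : d < R.card
    · rw [hdeg R hc]
      simp
    · apply (degree_C_mul_X_pow_le _ _).trans
      have : R.card ≤ 2 * k + 1 := by
        obtain ⟨j, hj⟩ := h
        omega
      exact_mod_cast this
  · simp

theorem abs_yf_le_one (f : (Fin n → Bool) → ℝ) (hf : ∀ x, f x = 1 ∨ f x = -1) (t : ℝ)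
    (h1 : -1 ≤ t) (h2 : t ≤ 1) : |yf f t| ≤ 1 := by
  have := abs_p_le_one f hf t h1 h2
  exact abs_le.mpr (abs_le_of_sq_le_sq' (by simpa [yf] using this) (by norm_num))

theorem abs_eval_Qodd_le_one (f : (Fin n → Bool) → ℝ) (hf : ∀ x, f x = 1 ∨ f x = -1) (t : ℝ)
    (ht : t ∈ Set.Icc (-1 : ℝ) 1) : |(Qodd f).eval t| ≤ 1 := by
  rw [eval_Qodd]
  have a1 := abs_le.mp (abs_yf_le_one f hf t ht.1 ht.2)
  have a2 := abs_le.mp (abs_yf_le_one f hf (-t) (by linarith [ht.2]) (by linarith [ht.1]))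
  rw [abs_le]
  constructor <;> linarith [a1.1, a1.2, a2.1, a2.2]

theorem eval_Qodd_le (f : (Fin n → Bool) → ℝ) (hf : ∀ x, f x = 1 ∨ f x = -1) (d : ℕ)
    (hdeg : ∀ S : Finset (Fin n), d < S.card → fhat f S = 0) (τ : ℝ) (h0 : 0 ≤ τ) (h1 : τ < 1) :
    (Qodd f).eval τ ≤ ((1 + τ) ^ d - (1 - τ) ^ d) / ((1 + τ) ^ d + (1 - τ) ^ d) := by
  rw [eval_Qodd]
  apply ode_bound (yf f) (yf' f) d (yf_hasDerivAt f) _ _ τ h0 h1
  · intro t ht1 ht2
    exact diff_ineq f hf d hdeg t ht1 ht2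
  · intro t ht1 ht2
    exact abs_p_le_one f hf t ht1 ht2

theorem abs_eval_Qodd_le (f : (Fin n → Bool) → ℝ) (hf : ∀ x, f x = 1 ∨ f x = -1) (d : ℕ)
    (hdeg : ∀ S : Finset (Fin n), d < S.card → fhat f S = 0) (τ : ℝ) (h0 : 0 ≤ τ) (h1 : τ < 1) :
    |(Qodd f).eval τ| ≤ ((1 + τ) ^ d - (1 - τ) ^ d) / ((1 + τ) ^ d + (1 - τ) ^ d) := by
  rw [abs_le]
  constructor
  · have := eval_Qodd_le (fun x => -f x) (fun x => by rcases hf x with h | h <;> simp [h]) d
      (fun S hS => by rw [fhat_neg, hdeg S hS, neg_zero]) τ h0 h1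
    rw [eval_Qodd, yf_neg, yf_neg] at this
    rw [eval_Qodd]
    linarith
  · exact eval_Qodd_le f hf d hdeg τ h0 h1

theorem eval_Qodd_neg (f : (Fin n → Bool) → ℝ) (t : ℝ) :
    (Qodd f).eval (-t) = -(Qodd f).eval t := by
  rw [eval_Qodd, eval_Qodd, neg_neg]
  ring

/-- Explicit bound. -/
theorem explicit_bound (f : (Fin n → Bool) → ℝ) (hf : ∀ x, f x = 1 ∨ f x = -1) (d k : ℕ)
    (hk : 1 ≤ k) (hd : d ≤ 2 * k + 2)
    (hdeg : ∀ S : Finset (Fin n), d < S.card → fhat f S = 0) (τ : ℝ)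
    (hτ : τ = Real.sin (Real.pi / (2 * (2 * k + 1)))) (h0 : 0 ≤ τ) (h1 : τ < 1) :
    ∑ i, fhat f {i} ≤ (2 * k + 1)
      - 2 * (1 - ((1 + τ) ^ d - (1 - τ) ^ d) / ((1 + τ) ^ d + (1 - τ) ^ d))
        / ((2 * k + 1) * τ ^ 2) := by
  rw [← coeff_one_Qodd]
  have := bernstein_refined k hk (Qodd f) (degree_Qodd f d k hd hdeg) (coeff_zero_Qodd f)
    (fun x hx => abs_eval_Qodd_le_one f hf x hx)
    (((1 + τ) ^ d - (1 - τ) ^ d) / ((1 + τ) ^ d + (1 - τ) ^ d))
    (by rw [← hτ]; exact abs_eval_Qodd_le f hf d hdeg τ h0 h1)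
    (by rw [← hτ, eval_Qodd_neg, abs_neg]; exact abs_eval_Qodd_le f hf d hdeg τ h0 h1)
  rw [← hτ] at this
  exact this

end Vale.Agent.P047
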