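import Mathlib

namespace Vale.Agent.P047.Comp

open Finset

/-- sign of a bit: `true ↦ 1`, `false ↦ -1` -/
def sg (b : Bool) : ℝ := if b then 1 else -1

theorem sg_mul_self (b : Bool) : sg b * sg b = 1 := by cases b <;> simp [sg]

theorem sum_sg : ∑ b : Bool, sg b = 0 := by simp [sg]

section basic

variable {ι : Type} [Fintype ι] [DecidableEq ι]

/-- character in product form over all coordinates -/
def chi (S : Finset ι) (x : ι → Bool) : ℝ := ∏ i, (if i ∈ S then sg (x i) else 1)

theorem chi_eq (S : Finset ι) (x : ι → Bool) : chi S x = ∏ i ∈ S, sg (x i) := by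
  unfold chi
  rw [Finset.prod_ite_mem, Finset.univ_inter]

/-- Fourier coefficient of a bit valued function -/
noncomputable def gh (φ : (ι → Bool) → Bool) (S : Finset ι) : ℝ :=
  (∑ x, sg (φ x) * chi S x) / 2 ^ Fintype.card ι

/-- level one sum -/
noncomputable def lv (φ : (ι → Bool) → Bool) : ℝ := ∑ i, gh φ {i}

theorem sum_chi (S : Finset ι) :
    ∑ x : ι → Bool, chi S x = if S = ∅ then 2 ^ Fintype.card ι else 0 := by
  unfold chi
  have h := (Finset.prod_univ_sum (fun _ : ι => (Finset.univ : Finset Bool))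
    (fun i b => if i ∈ S then sg b else (1 : ℝ))).symm
  rw [Fintype.piFinset_univ] at h
  rw [h]
  split_ifs with hS
  · subst hS
    simp
  · obtain ⟨k, hk⟩ := Finset.nonempty_iff_ne_empty.mpr hS
    apply Finset.prod_eq_zero (Finset.mem_univ k)
    simp [hk, sg]

end basic

section comp

variable {ι κ : Type} [Fintype ι] [DecidableEq ι] [Fintype κ] [DecidableEq κ]

/-- block composition -/
def comp (φ : (ι → Bool) → Bool) (ψ : (κ → Bool) → Bool) : (ι × κ → Bool) → Bool :=
  fun z => φ (fun i => ψ (fun j => z (i, j)))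

/-- fibre of a set of pairs -/
def fib (U : Finset (ι × κ)) (i : ι) : Finset κ := Finset.univ.filter (fun j => (i, j) ∈ U)

theorem chi_prod (U : Finset (ι × κ)) (z : ι × κ → Bool) :
    chi U z = ∏ i, chi (fib U i) (fun j => z (i, j)) := by
  unfold chi
  rw [Fintype.prod_prod_type]
  simp [fib]

theorem sg_eq_sum (φ : (ι → Bool) → Bool) (w0 : ι → Bool) :
    sg (φ w0) = ∑ w : ι → Bool, sg (φ w) * ∏ i, (if w0 i = w i then (1 : ℝ) else 0) := by
  rw [Finset.sum_eq_single w0]
  · simp
  · intro w _ hw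
    obtain ⟨i, hi⟩ : ∃ i, w0 i ≠ w i := by
      by_contra h
      push Not at h
      exact hw (funext h).symm
    rw [Finset.prod_eq_zero (Finset.mem_univ i) (by simp [hi])]
    simp
  · simp

theorem sum_comp (φ : (ι → Bool) → Bool) (ψ : (κ → Bool) → Bool) (U : Finset (ι × κ)) :
    ∑ z : ι × κ → Bool, sg (comp φ ψ z) * chi U z
      = ∑ w : ι → Bool, sg (φ w) * ∏ i, ∑ v : κ → Bool,
          (if ψ v = w i then (1 : ℝ) else 0) * chi (fib U i) v := by
  have h1 : ∑ z : ι × κ → Bool, sg (comp φ ψ z) * chi U z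
      = ∑ y : ι → κ → Bool, sg (φ (fun i => ψ (y i))) * ∏ i, chi (fib U i) (y i) := by
    rw [← (Equiv.curry ι κ Bool).sum_comp]
    apply Finset.sum_congr rfl
    intro z _
    rw [chi_prod]
    rfl
  rw [h1]
  have h2 : ∀ y : ι → κ → Bool, sg (φ (fun i => ψ (y i))) * ∏ i, chi (fib U i) (y i)
      = ∑ w : ι → Bool, sg (φ w) * ∏ i, ((if ψ (y i) = w i then (1 : ℝ) else 0)
          * chi (fib U i) (y i)) := by
    intro y
    rw [sg_eq_sum φ (fun i => ψ (y i)), Finset.sum_mul]
    apply Finset.sum_congr rfl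
    intro w _
    rw [Finset.prod_mul_distrib]
    ring
  simp_rw [h2]
  rw [Finset.sum_comm]
  apply Finset.sum_congr rfl
  intro w _
  rw [← Finset.mul_sum]
  congr 1
  rw [Finset.prod_univ_sum, Fintype.piFinset_univ]

theorem inner (ψ : (κ → Bool) → Bool) (hbal : gh ψ ∅ = 0) (T : Finset κ) (b : Bool) :
    ∑ v : κ → Bool, (if ψ v = b then (1 : ℝ) else 0) * chi T v
      = 2 ^ Fintype.card κ / 2
        * ((if T = ∅ then 1 else gh ψ T) * (if T = ∅ then 1 else sg b)) := by
  have h1 : ∀ v : κ → Bool, (if ψ v = b then (1 : ℝ) else 0) * chi T v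
      = (chi T v + sg b * (sg (ψ v) * chi T v)) / 2 := by
    intro v
    cases hv : ψ v <;> cases b <;> simp [sg]
  simp_rw [h1]
  rw [← Finset.sum_div, Finset.sum_add_distrib, ← Finset.mul_sum, sum_chi]
  have hpos : (2 : ℝ) ^ Fintype.card κ ≠ 0 := by positivity
  have h2 : ∑ v : κ → Bool, sg (ψ v) * chi T v = gh ψ T * 2 ^ Fintype.card κ := by
    unfold gh
    field_simp
  rw [h2]
  split_ifs with hT
  · subst hT
    rw [hbal]
    ring
  · ring

theorem comp_coeff (φ : (ι → Bool) → Bool) (ψ : (κ → Bool) → Bool) (hbal : gh ψ ∅ = 0)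
    (U : Finset (ι × κ)) :
    gh (comp φ ψ) U = (∏ i, if fib U i = ∅ then 1 else gh ψ (fib U i))
      * gh φ (Finset.univ.filter (fun i => fib U i ≠ ∅)) := by
  have hL : gh (comp φ ψ) U
      = (∑ z, sg (comp φ ψ z) * chi U z) / 2 ^ Fintype.card (ι × κ) := rfl
  have hR : gh φ (Finset.univ.filter (fun i => fib U i ≠ ∅))
      = (∑ w, sg (φ w) * chi (Finset.univ.filter (fun i => fib U i ≠ ∅)) w)
        / 2 ^ Fintype.card ι := rfl
  rw [hL, hR, sum_comp]
  simp_rw [inner ψ hbal]
  simp_rw [Finset.prod_mul_distrib]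
  have h1 : ∀ w : ι → Bool, ∏ i, (if fib U i = ∅ then (1 : ℝ) else sg (w i))
      = chi (Finset.univ.filter (fun i => fib U i ≠ ∅)) w := by
    intro w
    unfold chi
    apply Finset.prod_congr rfl
    intro i _
    by_cases h : fib U i = ∅ <;> simp [h]
  simp_rw [h1]
  rw [Finset.prod_const, Finset.card_univ, Fintype.card_prod]
  have hpos : (2 : ℝ) ^ Fintype.card κ ≠ 0 := by positivity
  have hpos2 : (2 : ℝ) ^ Fintype.card ι ≠ 0 := by positivity
  generalize (∏ i, if fib U i = ∅ then 1 else gh ψ (fib U i)) = c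
  have e1 : ∑ w : ι → Bool, sg (φ w) * ((2 ^ Fintype.card κ / 2) ^ Fintype.card ι
        * (c * chi (Finset.univ.filter (fun i => fib U i ≠ ∅)) w))
      = (2 ^ Fintype.card κ / 2) ^ Fintype.card ι * c
        * ∑ w : ι → Bool, sg (φ w) * chi (Finset.univ.filter (fun i => fib U i ≠ ∅)) w := by
    rw [Finset.mul_sum]
    apply Finset.sum_congr rfl
    intro w _
    ring
  rw [e1, div_pow, mul_comm (Fintype.card ι) (Fintype.card κ), pow_mul]
  field_simp

theorem card_eq_sum_fib (U : Finset (ι × κ)) : U.card = ∑ i, (fib U i).card := by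
  have h1 : ∀ i, (fib U i).card = ∑ j, if (i, j) ∈ U then 1 else 0 := by
    intro i
    unfold fib
    rw [Finset.card_filter]
  simp_rw [h1]
  rw [← Fintype.sum_prod_type (f := fun p : ι × κ => if p ∈ U then 1 else 0)]
  simp

theorem comp_deg (φ : (ι → Bool) → Bool) (ψ : (κ → Bool) → Bool) (hbal : gh ψ ∅ = 0)
    (d e : ℕ) (hφ : ∀ S : Finset ι, d < S.card → gh φ S = 0)
    (hψ : ∀ T : Finset κ, e < T.card → gh ψ T = 0) (U : Finset (ι × κ)) (hU : d * e < U.card) :
    gh (comp φ ψ) U = 0 := by
  rw [comp_coeff φ ψ hbal]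
  by_cases h : d < (Finset.univ.filter (fun i => fib U i ≠ ∅)).card
  · rw [hφ _ h, mul_zero]
  · rw [not_lt] at h
    have hex : ∃ i, e < (fib U i).card := by
      by_contra hcon
      push Not at hcon
      have h2 : U.card ≤ d * e := by
        rw [card_eq_sum_fib]
        have h3 : ∑ i, (fib U i).card
            = ∑ i ∈ Finset.univ.filter (fun i => fib U i ≠ ∅), (fib U i).card := by
          rw [Finset.sum_filter]
          apply Finset.sum_congr rfl
          intro i _
          by_cases h0 : fib U i = ∅ <;> simp [h0]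
        rw [h3]
        calc ∑ i ∈ Finset.univ.filter (fun i => fib U i ≠ ∅), (fib U i).card
            ≤ ∑ _i ∈ Finset.univ.filter (fun i => fib U i ≠ ∅), e :=
              Finset.sum_le_sum (fun i _ => hcon i)
          _ = (Finset.univ.filter (fun i => fib U i ≠ ∅)).card * e := by
              rw [Finset.sum_const, smul_eq_mul]
          _ ≤ d * e := Nat.mul_le_mul_right e h
      omega
    obtain ⟨i, hi⟩ := hex
    have hne : fib U i ≠ ∅ := by
      intro h0
      rw [h0] at hi
      simp at hi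
    rw [Finset.prod_eq_zero (Finset.mem_univ i) (by rw [if_neg hne, hψ _ hi]), zero_mul]

theorem fib_singleton (i : ι) (j : κ) (i' : ι) :
    fib ({(i, j)} : Finset (ι × κ)) i' = if i' = i then {j} else ∅ := by
  ext j'
  by_cases h : i' = i
  · subst h
    simp [fib]
  · simp [fib, h]

theorem comp_singleton (φ : (ι → Bool) → Bool) (ψ : (κ → Bool) → Bool) (hbal : gh ψ ∅ = 0)
    (i : ι) (j : κ) : gh (comp φ ψ) {(i, j)} = gh φ {i} * gh ψ {j} := by
  rw [comp_coeff φ ψ hbal]
  have h1 : (Finset.univ.filter (fun i' => fib ({(i, j)} : Finset (ι × κ)) i' ≠ ∅)) = {i} := by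
    ext i'
    by_cases h : i' = i <;> simp [fib_singleton, h]
  rw [h1, Finset.prod_eq_single i]
  · simp [fib_singleton]
    ring
  · intro i' _ h
    simp [fib_singleton, h]
  · simp

theorem comp_lv (φ : (ι → Bool) → Bool) (ψ : (κ → Bool) → Bool) (hbal : gh ψ ∅ = 0) :
    lv (comp φ ψ) = lv φ * lv ψ := by
  unfold lv
  rw [Fintype.sum_prod_type, Finset.sum_mul_sum]
  apply Finset.sum_congr rfl
  intro i _
  apply Finset.sum_congr rfl
  intro j _
  exact comp_singleton φ ψ hbal i j

theorem comp_bal (φ : (ι → Bool) → Bool) (ψ : (κ → Bool) → Bool) (hbal : gh ψ ∅ = 0) :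
    gh (comp φ ψ) ∅ = gh φ ∅ := by
  rw [comp_coeff φ ψ hbal]
  have h0 : ∀ i : ι, fib (∅ : Finset (ι × κ)) i = ∅ := by
    intro i
    simp [fib]
  simp [h0]

end comp

section iter

variable {ι : Type} [Fintype ι] [DecidableEq ι]

theorem iterate (φ : (ι → Bool) → Bool) (hbal : gh φ ∅ = 0) (d : ℕ)
    (hdeg : ∀ S : Finset ι, d < S.card → gh φ S = 0) (k : ℕ) :
    ∃ (κ : Type) (_ : Fintype κ) (_ : DecidableEq κ) (ψ : (κ → Bool) → Bool),
      gh ψ ∅ = 0 ∧ (∀ T : Finset κ, d ^ (k + 1) < T.card → gh ψ T = 0)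
        ∧ lv ψ = lv φ ^ (k + 1) := by
  induction k with
  | zero =>
    refine ⟨ι, inferInstance, inferInstance, φ, hbal, ?_, ?_⟩
    · intro T hT
      exact hdeg T (by simpa using hT)
    · simp
  | succ k ih =>
    obtain ⟨κ, hF, hD, ψ, h1, h2, h3⟩ := ih
    refine ⟨ι × κ, inferInstance, inferInstance, comp φ ψ, ?_, ?_, ?_⟩
    · rw [comp_bal φ ψ h1, hbal]
    · intro T hT
      apply comp_deg φ ψ h1 d (d ^ (k + 1)) hdeg h2 T
      calc d * d ^ (k + 1) = d ^ (k + 1 + 1) := by ring
        _ < T.card := hT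
    · rw [comp_lv φ ψ h1, h3]
      ring

end iter

section odd

variable {ι : Type} [Fintype ι] [DecidableEq ι]

theorem sg_beq (a b : Bool) : sg (a == b) = sg a * sg b := by
  cases a <;> cases b <;> simp [sg]

/-- the odd function `z₀ f(z₀ x)` (with `z₀` possibly negated) on one more variable -/
def odd (c : Bool) (φ : (ι → Bool) → Bool) : (Option ι → Bool) → Bool :=
  fun z => ((z none == c) == φ (fun i => ((z none == c) == z (some i))))

theorem sum_option (H : (Option ι → Bool) → ℝ) :
    ∑ z, H z = ∑ b : Bool, ∑ x : ι → Bool, H (fun a => Option.elim a b x) := by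
  rw [← Fintype.sum_prod_type']
  apply Fintype.sum_equiv (Equiv.piOptionEquivProd (β := fun _ => Bool))
  intro z
  congr 1
  funext a
  cases a <;> rfl

theorem sum_flip (b : Bool) (H : (ι → Bool) → ℝ) :
    ∑ x : ι → Bool, H (fun i => (b == x i)) = ∑ x, H x := by
  have hinv : Function.Involutive (fun (x : ι → Bool) (i : ι) => (b == x i)) := by
    intro x
    funext i
    show (b == (b == x i)) = x i
    cases b <;> cases x i <;> rfl
  exact Equiv.sum_comp (hinv.toPerm) H

theorem odd_coeff (c : Bool) (φ : (ι → Bool) → Bool) (T : Finset (Option ι)) :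
    gh (odd c φ) T = ((∑ b : Bool, sg (b == c) * (if none ∈ T then sg b else 1)
        * sg (b == c) ^ (Finset.univ.filter (fun i : ι => some i ∈ T)).card) / 2)
      * gh φ (Finset.univ.filter (fun i : ι => some i ∈ T)) := by
  unfold gh
  rw [sum_option]
  have h1 : ∀ b : Bool, ∑ x : ι → Bool, sg (odd c φ (fun a => Option.elim a b x))
        * chi T (fun a => Option.elim a b x)
      = sg (b == c) * (if none ∈ T then sg b else 1)
        * sg (b == c) ^ (Finset.univ.filter (fun i : ι => some i ∈ T)).card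
        * ∑ x, sg (φ x) * chi (Finset.univ.filter (fun i : ι => some i ∈ T)) x := by
    intro b
    rw [← sum_flip (b == c) (fun x => sg (φ x)
      * chi (Finset.univ.filter (fun i : ι => some i ∈ T)) x), Finset.mul_sum]
    apply Finset.sum_congr rfl
    intro x _
    have e1 : odd c φ (fun a => Option.elim a b x)
        = ((b == c) == φ (fun i => ((b == c) == x i))) := rfl
    have e2 : chi T (fun a => Option.elim a b x)
        = (if none ∈ T then sg b else 1) * ∏ i, (if some i ∈ T then sg (x i) else 1) := by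
      unfold chi
      rw [Fintype.prod_option]
      rfl
    have e3 : chi (Finset.univ.filter (fun i : ι => some i ∈ T)) (fun i => ((b == c) == x i))
        = sg (b == c) ^ (Finset.univ.filter (fun i : ι => some i ∈ T)).card
          * ∏ i, (if some i ∈ T then sg (x i) else 1) := by
      unfold chi
      rw [← Finset.prod_const, Finset.prod_filter, ← Finset.prod_mul_distrib]
      apply Finset.prod_congr rfl
      intro i _
      by_cases h : some i ∈ T <;> simp [h, sg_beq]
    rw [e1, e2, e3, sg_beq]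
    have e4 : sg (b == c) ^ (Finset.univ.filter (fun i : ι => some i ∈ T)).card
        * sg (b == c) ^ (Finset.univ.filter (fun i : ι => some i ∈ T)).card = 1 := by
      rw [← mul_pow, sg_mul_self, one_pow]
    generalize sg (b == c) ^ (Finset.univ.filter (fun i : ι => some i ∈ T)).card = q at e4 ⊢
    calc sg (b == c) * sg (φ fun i => (b == c) == x i)
          * ((if none ∈ T then sg b else 1) * ∏ i, if some i ∈ T then sg (x i) else 1)
        = sg (b == c) * sg (φ fun i => (b == c) == x i)
          * ((if none ∈ T then sg b else 1) * ∏ i, if some i ∈ T then sg (x i) else 1) * 1 := by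
          ring
      _ = _ := by
          rw [← e4]
          ring
  simp_rw [h1]
  rw [← Finset.sum_mul, Fintype.card_option, pow_succ]
  field_simp

theorem odd_bal (c : Bool) (φ : (ι → Bool) → Bool) : gh (odd c φ) ∅ = 0 := by
  rw [odd_coeff]
  cases c <;> simp [sg]

theorem odd_none (c : Bool) (φ : (ι → Bool) → Bool) :
    gh (odd c φ) {none} = sg c * gh φ ∅ := by
  rw [odd_coeff]
  have h : (Finset.univ.filter (fun i : ι => some i ∈ ({none} : Finset (Option ι)))) = ∅ := by
    ext i
    simp
  rw [h]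
  cases c <;> simp [sg] <;> norm_num

theorem odd_some (c : Bool) (φ : (ι → Bool) → Bool) (i : ι) :
    gh (odd c φ) {some i} = gh φ {i} := by
  rw [odd_coeff]
  have h : (Finset.univ.filter (fun j : ι => some j ∈ ({some i} : Finset (Option ι)))) = {i} := by
    ext j
    simp
  rw [h]
  cases c <;> simp [sg] <;> norm_num

theorem odd_lv (c : Bool) (φ : (ι → Bool) → Bool) :
    lv (odd c φ) = sg c * gh φ ∅ + lv φ := by
  unfold lv
  rw [Fintype.sum_option, odd_none]
  simp_rw [odd_some]

theorem odd_deg (c : Bool) (φ : (ι → Bool) → Bool) (d : ℕ)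
    (hdeg : ∀ S : Finset ι, d < S.card → gh φ S = 0) (T : Finset (Option ι))
    (hT : d + 1 < T.card) : gh (odd c φ) T = 0 := by
  rw [odd_coeff]
  have hsub : T ⊆ insert none ((Finset.univ.filter (fun i : ι => some i ∈ T)).map
      Function.Embedding.some) := by
    intro a ha
    cases a with
    | none => simp
    | some i => simp [ha]
  have hc := (Finset.card_le_card hsub).trans (Finset.card_insert_le _ _)
  rw [Finset.card_map] at hc
  rw [hdeg _ (by omega), mul_zero]

end odd

end Vale.Agent.P047.Comp
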