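import Mathlib
import Vale.Agent.P047.Expand

namespace Vale.Agent.P047

open Finset

variable {n : ℕ}

/-- indicator of the subcube `x = true` on `P`, `x = false` on `Q` -/
noncomputable def ind (P Q : Finset (Fin n)) (x : Fin n → Bool) : ℝ :=
  if (∀ i ∈ P, x i = true) ∧ (∀ i ∈ Q, x i = false) then 1 else 0

/-- sign pattern of the fixed coordinates -/
noncomputable def sgn (P Q : Finset (Fin n)) (i : Fin n) : ℝ :=
  if i ∈ P then 1 else if i ∈ Q then -1 else 0

/-- coordinate factor of the indicator -/
noncomputable def iot (P Q : Finset (Fin n)) (k : Fin n) (b : Bool) : ℝ :=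
  (if k ∈ P then (if b then 1 else 0) else 1) * (if k ∈ Q then (if b then 0 else 1) else 1)

theorem ind_eq_prod (P Q : Finset (Fin n)) (x : Fin n → Bool) :
    ind P Q x = ∏ k, iot P Q k (x k) := by
  unfold ind
  split_ifs with h
  · symm
    apply Finset.prod_eq_one
    intro k _
    unfold iot
    by_cases hP : k ∈ P
    · by_cases hQ : k ∈ Q
      · have h1 := h.1 k hP
        have h2 := h.2 k hQ
        rw [h1] at h2
        exact absurd h2 (by simp)
      · simp [hP, hQ, h.1 k hP]
    · by_cases hQ : k ∈ Q
      · simp [hP, hQ, h.2 k hQ]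
      · simp [hP, hQ]
  · symm
    rw [not_and_or] at h
    rcases h with h | h
    · push Not at h
      obtain ⟨k, hk, hx⟩ := h
      apply Finset.prod_eq_zero (Finset.mem_univ k)
      have : x k = false := by
        cases hxk : x k
        · rfl
        · exact absurd hxk hx
      simp [iot, hk, this]
    · push Not at h
      obtain ⟨k, hk, hx⟩ := h
      apply Finset.prod_eq_zero (Finset.mem_univ k)
      have : x k = true := by
        cases hxk : x k
        · exact absurd hxk hx
        · rfl
      simp [iot, hk, this]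

theorem sum_ind_mul_prod (P Q : Finset (Fin n)) (u : Fin n → Bool → ℝ) :
    ∑ x : Fin n → Bool, ind P Q x * ∏ k, u k (x k)
      = ∏ k, (iot P Q k true * u k true + iot P Q k false * u k false) := by
  rw [← sum_prod_cube (fun k b => iot P Q k b * u k b)]
  apply Finset.sum_congr rfl
  intro x _
  rw [ind_eq_prod, ← Finset.prod_mul_distrib]

/-- biased measure of a subcube -/
theorem sum_ind_wt (P Q : Finset (Fin n)) (hPQ : Disjoint P Q) (t : ℝ) :
    ∑ x : Fin n → Bool, ind P Q x * wt t x
      = ((1 + t) / 2) ^ P.card * ((1 - t) / 2) ^ Q.card := by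
  unfold wt
  rw [sum_ind_mul_prod P Q (fun _ b => (1 + t * sg b) / 2)]
  have h : ∀ k : Fin n, (iot P Q k true * ((1 + t * sg true) / 2)
      + iot P Q k false * ((1 + t * sg false) / 2))
      = (if k ∈ P then (1 + t) / 2 else 1) * (if k ∈ Q then (1 - t) / 2 else 1) := by
    intro k
    by_cases hP : k ∈ P
    · have hQ : k ∉ Q := Finset.disjoint_left.mp hPQ hP
      simp [iot, hP, hQ, sg]
    · by_cases hQ : k ∈ Q
      · simp [iot, hP, hQ, sg]
        ring
      · simp [iot, hP, hQ, sg]
        ring
  simp_rw [h]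
  rw [Finset.prod_mul_distrib]
  congr 1
  · rw [Finset.prod_ite_mem, Finset.univ_inter, Finset.prod_const]
  · rw [Finset.prod_ite_mem, Finset.univ_inter, Finset.prod_const]

/-- Fourier coefficients of a subcube indicator -/
theorem fhat_ind (P Q : Finset (Fin n)) (hPQ : Disjoint P Q) (T : Finset (Fin n)) :
    fhat (ind P Q) T = (1 / 2) ^ (P.card + Q.card) * ∏ k ∈ T, sgn P Q k := by
  unfold fhat
  have h0 : ∀ x : Fin n → Bool, ∏ i ∈ T, sg (x i) = ∏ k, (if k ∈ T then sg (x k) else 1) := by
    intro x
    rw [Finset.prod_ite_mem, Finset.univ_inter]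
  simp_rw [h0]
  rw [sum_ind_mul_prod P Q (fun k b => if k ∈ T then sg b else 1)]
  have h : ∀ k : Fin n, (iot P Q k true * (if k ∈ T then sg true else 1)
      + iot P Q k false * (if k ∈ T then sg false else 1))
      = 2 * ((if k ∈ P then 1 / 2 else 1) * (if k ∈ Q then 1 / 2 else 1)
          * (if k ∈ T then sgn P Q k else 1)) := by
    intro k
    by_cases hP : k ∈ P
    · have hQ : k ∉ Q := Finset.disjoint_left.mp hPQ hP
      by_cases hT : k ∈ T <;> simp [iot, sgn, hP, hQ, hT, sg]
    · by_cases hQ : k ∈ Q
      · by_cases hT : k ∈ T <;> simp [iot, sgn, hP, hQ, hT, sg]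
      · by_cases hT : k ∈ T <;> simp [iot, sgn, hP, hQ, hT, sg]
        norm_num
  simp_rw [h]
  rw [Finset.prod_mul_distrib, Finset.prod_mul_distrib, Finset.prod_mul_distrib,
    Finset.prod_const, Finset.card_univ, Fintype.card_fin,
    Finset.prod_ite_mem, Finset.prod_ite_mem, Finset.prod_ite_mem,
    Finset.univ_inter, Finset.univ_inter, Finset.univ_inter, Finset.prod_const, Finset.prod_const,
    pow_add]
  field_simp

end Vale.Agent.P047
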