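import Mathlib
import Vale.Agent.P047.Subcube

namespace Vale.Agent.P047

open Finset

variable {n : ℕ}

theorem two_mul_le_log_sub_log {δ : ℝ} (h0 : 0 ≤ δ) (h1 : δ < 1) :
    2 * δ ≤ Real.log (1 + δ) - Real.log (1 - δ) := by
  have habs : |δ| < 1 := by rw [abs_of_nonneg h0]; exact h1
  have hs := Real.hasSum_log_sub_log_of_abs_lt_one habs
  have := le_hasSum hs 0 (fun j _ => by positivity)
  simpa using this

theorem key_ineq {δ : ℝ} (h0 : 0 < δ) (h1 : δ < 1) (a b : ℕ)
    (hab : ((a : ℝ) + b) * δ ^ 2 ≤ 1 - δ ^ 2) :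
    Real.exp (1 / 2) * δ * ((a : ℝ) - b) ≤ (1 + δ) ^ a * (1 - δ) ^ b := by
  have hp1 : 0 < 1 + δ := by linarith
  have hp2 : 0 < 1 - δ := by linarith
  have hpos : 0 < (1 + δ) ^ a * (1 - δ) ^ b := by positivity
  by_cases hle : (a : ℝ) ≤ b
  · have : Real.exp (1 / 2) * δ * ((a : ℝ) - b) ≤ 0 := by
      apply mul_nonpos_of_nonneg_of_nonpos (by positivity) (by linarith)
    linarith
  · rw [not_le] at hle
    set A := Real.log (1 + δ) with hA
    set B := Real.log (1 - δ) with hB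
    have h2 : 2 * δ ≤ A - B := two_mul_le_log_sub_log h0.le h1
    have hd2 : 0 < 1 - δ ^ 2 := by nlinarith
    have h3 : -(δ ^ 2 / (1 - δ ^ 2)) ≤ A + B := by
      rw [hA, hB, ← Real.log_mul hp1.ne' hp2.ne']
      have h4 := Real.one_sub_inv_le_log_of_pos (show 0 < (1 + δ) * (1 - δ) by positivity)
      have h5 : (1 + δ) * (1 - δ) = 1 - δ ^ 2 := by ring
      rw [h5] at h4 ⊢
      have h6 : 1 - (1 - δ ^ 2)⁻¹ = -(δ ^ 2 / (1 - δ ^ 2)) := by
        field_simp
        ring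
      linarith
    have hE : (1 + δ) ^ a * (1 - δ) ^ b = Real.exp (a * A + b * B) := by
      rw [Real.exp_add, Real.exp_nat_mul, Real.exp_nat_mul, hA, hB, Real.exp_log hp1,
        Real.exp_log hp2]
    have h7 : ((a : ℝ) + b) * (δ ^ 2 / (1 - δ ^ 2)) ≤ 1 := by
      rw [← mul_div_assoc, div_le_one hd2]
      exact hab
    have hab0 : (0 : ℝ) ≤ (a : ℝ) + b := by positivity
    have h8 : ((a : ℝ) - b) * δ - 1 / 2 ≤ a * A + b * B := by
      have e1 : a * A + b * B = ((a : ℝ) - b) / 2 * (A - B) + ((a : ℝ) + b) / 2 * (A + B) := by ring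
      rw [e1]
      have e2 : ((a : ℝ) - b) / 2 * (2 * δ) ≤ ((a : ℝ) - b) / 2 * (A - B) :=
        mul_le_mul_of_nonneg_left h2 (by linarith)
      have e3 : ((a : ℝ) + b) / 2 * (-(δ ^ 2 / (1 - δ ^ 2))) ≤ ((a : ℝ) + b) / 2 * (A + B) :=
        mul_le_mul_of_nonneg_left h3 (by linarith)
      nlinarith
    rw [hE]
    calc Real.exp (1 / 2) * δ * ((a : ℝ) - b)
        = Real.exp (1 / 2) * ((((a : ℝ) - b) * δ - 1) + 1) := by ring
      _ ≤ Real.exp (1 / 2) * Real.exp (((a : ℝ) - b) * δ - 1) :=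
          mul_le_mul_of_nonneg_left (Real.add_one_le_exp _) (Real.exp_pos _).le
      _ = Real.exp (((a : ℝ) - b) * δ - 1 / 2) := by
          rw [← Real.exp_add]
          congr 1
          ring
      _ ≤ Real.exp (a * A + b * B) := Real.exp_le_exp.mpr h8

/-- one-sided estimate: a fractional packing of subcubes of codimension at most `d`. -/
theorem packing_le {m : ℕ} (d : ℕ) (hd : 1 ≤ d) (P Q : Fin m → Finset (Fin n))
    (hPQ : ∀ j, Disjoint (P j) (Q j)) (hw : ∀ j, (P j).card + (Q j).card ≤ d)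
    (hpack : ∀ x, ∑ j, ind (P j) (Q j) x ≤ 1) :
    ∑ j, (1 / 2 : ℝ) ^ ((P j).card + (Q j).card) * (((P j).card : ℝ) - (Q j).card)
      ≤ Real.sqrt ((d + 1) / Real.exp 1) := by
  set δ : ℝ := 1 / Real.sqrt (d + 1) with hδ
  have hd1 : (0 : ℝ) < (d : ℝ) + 1 := by positivity
  have hs : 0 < Real.sqrt (d + 1) := Real.sqrt_pos.mpr hd1
  have hδ0 : 0 < δ := by positivity
  have hδ2 : δ ^ 2 = 1 / ((d : ℝ) + 1) := by
    rw [hδ, div_pow, Real.sq_sqrt hd1.le, one_pow]
  have hδ1 : δ < 1 := by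
    have : δ ^ 2 < 1 := by
      rw [hδ2, div_lt_one hd1]
      have : (1 : ℝ) ≤ d := by exact_mod_cast hd
      linarith
    nlinarith
  have hsum : ∑ j, ((1 + δ) / 2) ^ (P j).card * ((1 - δ) / 2) ^ (Q j).card ≤ 1 := by
    calc ∑ j, ((1 + δ) / 2) ^ (P j).card * ((1 - δ) / 2) ^ (Q j).card
        = ∑ j, ∑ x : Fin n → Bool, ind (P j) (Q j) x * wt δ x := by
          apply Finset.sum_congr rfl
          intro j _
          rw [sum_ind_wt _ _ (hPQ j)]
      _ = ∑ x : Fin n → Bool, (∑ j, ind (P j) (Q j) x) * wt δ x := by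
          rw [Finset.sum_comm]
          apply Finset.sum_congr rfl
          intro x _
          rw [Finset.sum_mul]
      _ ≤ ∑ x : Fin n → Bool, 1 * wt δ x := by
          apply Finset.sum_le_sum
          intro x _
          exact mul_le_mul_of_nonneg_right (hpack x) (wt_nonneg (by linarith) hδ1.le x)
      _ = 1 := by simp [sum_wt]
  have hterm : ∀ j, Real.exp (1 / 2) * δ *
      ((1 / 2 : ℝ) ^ ((P j).card + (Q j).card) * (((P j).card : ℝ) - (Q j).card))
      ≤ ((1 + δ) / 2) ^ (P j).card * ((1 - δ) / 2) ^ (Q j).card := by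
    intro j
    have hab : (((P j).card : ℝ) + (Q j).card) * δ ^ 2 ≤ 1 - δ ^ 2 := by
      rw [hδ2]
      have h1 : (((P j).card : ℝ) + (Q j).card) ≤ d := by exact_mod_cast hw j
      have h2 : 1 - 1 / ((d : ℝ) + 1) = d * (1 / ((d : ℝ) + 1)) := by
        field_simp
        ring
      rw [h2]
      exact mul_le_mul_of_nonneg_right h1 (by positivity)
    have hk := key_ineq hδ0 hδ1 (P j).card (Q j).card hab
    have e : ((1 + δ) / 2) ^ (P j).card * ((1 - δ) / 2) ^ (Q j).card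
        = (1 / 2 : ℝ) ^ ((P j).card + (Q j).card) * ((1 + δ) ^ (P j).card * (1 - δ) ^ (Q j).card) := by
      rw [div_pow, div_pow, pow_add, one_div, inv_pow, inv_pow]
      field_simp
    rw [e]
    have hp : (0 : ℝ) ≤ (1 / 2 : ℝ) ^ ((P j).card + (Q j).card) := by positivity
    nlinarith [mul_le_mul_of_nonneg_left hk hp]
  have hall : Real.exp (1 / 2) * δ *
      ∑ j, (1 / 2 : ℝ) ^ ((P j).card + (Q j).card) * (((P j).card : ℝ) - (Q j).card) ≤ 1 := by
    rw [Finset.mul_sum]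
    exact (Finset.sum_le_sum (fun j _ => hterm j)).trans hsum
  have hval : Real.sqrt ((d + 1) / Real.exp 1) = 1 / (Real.exp (1 / 2) * δ) := by
    rw [Real.sqrt_div hd1.le, hδ]
    have : Real.sqrt (Real.exp 1) = Real.exp (1 / 2) := by
      rw [Real.sqrt_eq_iff_mul_self_eq (Real.exp_pos _).le (Real.exp_pos _).le, ← Real.exp_add]
      norm_num
    rw [this]
    field_simp
  rw [hval, le_div_iff₀ (by positivity)]
  linarith

end Vale.Agent.P047
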