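import Mathlib
import Vale.Agent.P047.Tuza

namespace Vale.Agent.P047

open Finset

variable {n : ℕ}

theorem ind_empty (x : Fin n → Bool) : ind (∅ : Finset (Fin n)) ∅ x = 1 := by
  simp [ind]

theorem ind_swap (P Q : Finset (Fin n)) (x : Fin n → Bool) :
    ind Q P x = ind P Q (fun i => !x i) := by
  unfold ind
  have : ((∀ i ∈ Q, x i = true) ∧ (∀ i ∈ P, x i = false))
      ↔ ((∀ i ∈ P, (!x i) = true) ∧ (∀ i ∈ Q, (!x i) = false)) := by
    constructor
    · rintro ⟨h1, h2⟩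
      exact ⟨fun i hi => by simp [h2 i hi], fun i hi => by simp [h1 i hi]⟩
    · rintro ⟨h1, h2⟩
      exact ⟨fun i hi => by simpa using h2 i hi, fun i hi => by simpa using h1 i hi⟩
  simp only [this]

theorem fhat_affine {m : ℕ} (c0 : ℝ) (c : Fin m → ℝ) (P Q : Fin m → Finset (Fin n))
    (hPQ : ∀ j, Disjoint (P j) (Q j)) (f : (Fin n → Bool) → ℝ)
    (hf : ∀ x, f x = c0 + ∑ j, c j * ind (P j) (Q j) x) (T : Finset (Fin n)) :
    fhat f T = c0 * (if T = ∅ then 1 else 0)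
      + ∑ j, c j * ((1 / 2) ^ ((P j).card + (Q j).card) * ∏ k ∈ T, sgn (P j) (Q j) k) := by
  have h1 : fhat f T = c0 * fhat (ind (∅ : Finset (Fin n)) ∅) T
      + ∑ j, c j * fhat (ind (P j) (Q j)) T := by
    unfold fhat
    simp_rw [hf, ind_empty]
    rw [← mul_div_assoc, Finset.mul_sum]
    simp_rw [← mul_div_assoc, Finset.mul_sum]
    rw [← Finset.sum_div, ← add_div, Finset.sum_comm, ← Finset.sum_add_distrib]
    congr 1
    apply Finset.sum_congr rfl
    intro x _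
    rw [add_mul, Finset.sum_mul]
    congr 1
    · ring
    · apply Finset.sum_congr rfl
      intro j _
      ring
  rw [h1, fhat_ind _ _ (Finset.disjoint_empty_left _)]
  simp_rw [fun j => fhat_ind _ _ (hPQ j) T]
  congr 2
  split_ifs with hT
  · subst hT
    simp
  · obtain ⟨k, hk⟩ := Finset.nonempty_iff_ne_empty.mpr hT
    rw [Finset.prod_eq_zero hk (by simp [sgn])]
    simp

theorem sum_sgn (P Q : Finset (Fin n)) (hPQ : Disjoint P Q) :
    ∑ i, sgn P Q i = (P.card : ℝ) - Q.card := by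
  have h : ∀ i, sgn P Q i = (if i ∈ P then (1 : ℝ) else 0) - (if i ∈ Q then (1 : ℝ) else 0) := by
    intro i
    by_cases hP : i ∈ P
    · have hQ : i ∉ Q := Finset.disjoint_left.mp hPQ hP
      simp [sgn, hP, hQ]
    · by_cases hQ : i ∈ Q <;> simp [sgn, hP, hQ]
  simp_rw [h]
  rw [Finset.sum_sub_distrib]
  simp

theorem sum_sgn_sq (P Q : Finset (Fin n)) (hPQ : Disjoint P Q) :
    ∑ i, sgn P Q i * sgn P Q i = (P.card : ℝ) + Q.card := by
  have h : ∀ i, sgn P Q i * sgn P Q i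
      = (if i ∈ P then (1 : ℝ) else 0) + (if i ∈ Q then (1 : ℝ) else 0) := by
    intro i
    by_cases hP : i ∈ P
    · have hQ : i ∉ Q := Finset.disjoint_left.mp hPQ hP
      simp [sgn, hP, hQ]
    · by_cases hQ : i ∈ Q <;> simp [sgn, hP, hQ]
  simp_rw [h]
  rw [Finset.sum_add_distrib]
  simp

theorem prod_sgn_eq_zero (P Q T : Finset (Fin n)) (h : P.card + Q.card < T.card) :
    ∏ k ∈ T, sgn P Q k = 0 := by
  have : ∃ k ∈ T, k ∉ P ∪ Q := by
    by_contra hcon
    push Not at hcon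
    have hsub : T ⊆ P ∪ Q := hcon
    have := (Finset.card_le_card hsub).trans (Finset.card_union_le P Q)
    omega
  obtain ⟨k, hk, hk2⟩ := this
  rw [Finset.mem_union, not_or] at hk2
  exact Finset.prod_eq_zero hk (by simp [sgn, hk2.1, hk2.2])

/-- level-one sum of an affine combination of subcube indicators -/
theorem lev_affine {m : ℕ} (c0 : ℝ) (c : Fin m → ℝ) (P Q : Fin m → Finset (Fin n))
    (hPQ : ∀ j, Disjoint (P j) (Q j)) (f : (Fin n → Bool) → ℝ)
    (hf : ∀ x, f x = c0 + ∑ j, c j * ind (P j) (Q j) x) :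
    ∑ i, fhat f {i}
      = ∑ j, c j * ((1 / 2) ^ ((P j).card + (Q j).card) * (((P j).card : ℝ) - (Q j).card)) := by
  simp_rw [fhat_affine c0 c P Q hPQ f hf]
  simp only [Finset.singleton_ne_empty, if_false, mul_zero, zero_add, Finset.prod_singleton]
  rw [Finset.sum_comm]
  apply Finset.sum_congr rfl
  intro j _
  rw [← Finset.mul_sum, ← Finset.mul_sum, sum_sgn _ _ (hPQ j)]

/-- **Unambiguous DNF bound.** -/
theorem lev_unamb {m : ℕ} (d : ℕ) (hd : 1 ≤ d) (P Q : Fin m → Finset (Fin n))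
    (hPQ : ∀ j, Disjoint (P j) (Q j)) (hw : ∀ j, (P j).card + (Q j).card ≤ d)
    (hpack : ∀ x, ∑ j, ind (P j) (Q j) x ≤ 1) (f : (Fin n → Bool) → ℝ)
    (hf : ∀ x, f x = 1 - 2 * ∑ j, ind (P j) (Q j) x) :
    |∑ i, fhat f {i}| ≤ 2 * Real.sqrt ((d + 1) / Real.exp 1) := by
  have hf' : ∀ x, f x = 1 + ∑ j, (-2 : ℝ) * ind (P j) (Q j) x := by
    intro x
    rw [hf x, ← Finset.mul_sum]
    ring
  rw [lev_affine 1 (fun _ => (-2 : ℝ)) P Q hPQ f hf', ← Finset.mul_sum]
  have h1 := packing_le d hd P Q hPQ hw hpack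
  have h2 := packing_le d hd Q P (fun j => (hPQ j).symm) (fun j => by rw [add_comm]; exact hw j)
    (fun x => by
      have : ∀ j, ind (Q j) (P j) x = ind (P j) (Q j) (fun i => !x i) := fun j => ind_swap _ _ x
      rw [Finset.sum_congr rfl (fun j _ => this j)]
      exact hpack _)
  have h3 : ∑ j, (1 / 2 : ℝ) ^ ((Q j).card + (P j).card) * (((Q j).card : ℝ) - (P j).card)
      = -∑ j, (1 / 2 : ℝ) ^ ((P j).card + (Q j).card) * (((P j).card : ℝ) - (Q j).card) := by
    rw [← Finset.sum_neg_distrib]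
    apply Finset.sum_congr rfl
    intro j _
    rw [add_comm]
    ring
  rw [h3] at h2
  rw [abs_le]
  constructor <;> linarith

theorem deg_unamb {m : ℕ} (d : ℕ) (c0 : ℝ) (c : Fin m → ℝ) (P Q : Fin m → Finset (Fin n))
    (hPQ : ∀ j, Disjoint (P j) (Q j)) (hw : ∀ j, (P j).card + (Q j).card ≤ d)
    (f : (Fin n → Bool) → ℝ) (hf : ∀ x, f x = c0 + ∑ j, c j * ind (P j) (Q j) x)
    (T : Finset (Fin n)) (hT : d < T.card) : fhat f T = 0 := by
  rw [fhat_affine c0 c P Q hPQ f hf]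
  have hne : T ≠ ∅ := by
    rintro rfl
    simp at hT
  rw [if_neg hne, mul_zero, zero_add]
  apply Finset.sum_eq_zero
  intro j _
  rw [prod_sgn_eq_zero _ _ _ (lt_of_le_of_lt (hw j) hT)]
  ring

/-- **Subcube partition bound.** -/
theorem lev_partition {m : ℕ} (c : Fin m → ℝ) (hc : ∀ j, c j * c j = 1)
    (P Q : Fin m → Finset (Fin n)) (hPQ : ∀ j, Disjoint (P j) (Q j))
    (hpart : ∀ x, ∑ j, ind (P j) (Q j) x = 1) (f : (Fin n → Bool) → ℝ)
    (hf : ∀ x, f x = ∑ j, c j * ind (P j) (Q j) x) :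
    (∑ i, fhat f {i}) ^ 2
      ≤ ∑ j, (1 / 2 : ℝ) ^ ((P j).card + (Q j).card) * (((P j).card : ℝ) + (Q j).card) := by
  set μ : Fin m → ℝ := fun j => (1 / 2 : ℝ) ^ ((P j).card + (Q j).card) with hμ
  set t : Fin m → ℝ := fun j => ((P j).card : ℝ) - (Q j).card with ht
  have hμ0 : ∀ j, 0 ≤ μ j := fun j => by positivity
  have hL : ∑ i, fhat f {i} = ∑ j, c j * (μ j * t j) :=
    lev_affine 0 c P Q hPQ f (fun x => by rw [hf x, zero_add])
  -- the constant one function
  have hone : ∀ x : Fin n → Bool, (fun _ => (1 : ℝ)) x = 0 + ∑ j, (1 : ℝ) * ind (P j) (Q j) x := by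
    intro x
    simp [hpart x]
  have hone' : ∀ x : Fin n → Bool, (fun _ => (1 : ℝ)) x
      = 1 + ∑ j : Fin 0, (0 : ℝ) * ind ((fun _ => ∅ : Fin 0 → Finset (Fin n)) j)
          ((fun _ => ∅ : Fin 0 → Finset (Fin n)) j) x := by
    intro x
    simp
  have hcoef : ∀ T : Finset (Fin n), ∑ j, μ j * ∏ k ∈ T, sgn (P j) (Q j) k
      = if T = ∅ then 1 else 0 := by
    intro T
    have e1 := fhat_affine 0 (fun _ => (1 : ℝ)) P Q hPQ (fun _ => (1 : ℝ)) hone T
    have e2 := fhat_affine 1 (fun _ : Fin 0 => (0 : ℝ)) (fun _ => ∅) (fun _ => ∅)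
      (fun j => j.elim0) (fun _ => (1 : ℝ)) hone' T
    rw [e1] at e2
    simp only [zero_mul, zero_add, one_mul, Finset.univ_eq_empty, Finset.sum_empty, add_zero] at e2
    exact e2
  have hμ1 : ∑ j, μ j = 1 := by simpa using hcoef ∅
  have hsq : ∑ j, μ j * (t j * t j) = ∑ j, μ j * (((P j).card : ℝ) + (Q j).card) := by
    have e1 : ∀ j, t j * t j = ∑ i, ∑ i', sgn (P j) (Q j) i * sgn (P j) (Q j) i' := by
      intro j
      rw [ht]
      simp only
      rw [← sum_sgn _ _ (hPQ j), Finset.sum_mul_sum]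
    have e2 : ∑ j, μ j * (t j * t j)
        = ∑ i, ∑ i', ∑ j, μ j * (sgn (P j) (Q j) i * sgn (P j) (Q j) i') := by
      simp_rw [e1, Finset.mul_sum]
      rw [Finset.sum_comm]
      apply Finset.sum_congr rfl
      intro i _
      rw [Finset.sum_comm]
    have e3 : ∀ i i' : Fin n, i' ≠ i →
        ∑ j, μ j * (sgn (P j) (Q j) i * sgn (P j) (Q j) i') = 0 := by
      intro i i' hne
      have := hcoef {i, i'}
      rw [if_neg (by simp)] at this
      simp_rw [Finset.prod_pair hne.symm] at this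
      exact this
    rw [e2]
    have e4 : ∀ i : Fin n, ∑ i', ∑ j, μ j * (sgn (P j) (Q j) i * sgn (P j) (Q j) i')
        = ∑ j, μ j * (sgn (P j) (Q j) i * sgn (P j) (Q j) i) := by
      intro i
      exact Finset.sum_eq_single i (fun i' _ hne => e3 i i' hne) (by simp)
    simp_rw [e4]
    rw [Finset.sum_comm]
    apply Finset.sum_congr rfl
    intro j _
    rw [← Finset.mul_sum, sum_sgn_sq _ _ (hPQ j)]
  rw [← hsq, hL]
  set L := ∑ j, c j * (μ j * t j) with hLdef
  have hexp : 0 ≤ ∑ j, μ j * ((t j - L * c j) * (t j - L * c j)) :=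
    Finset.sum_nonneg (fun j _ => mul_nonneg (hμ0 j) (mul_self_nonneg _))
  have hexp2 : ∑ j, μ j * ((t j - L * c j) * (t j - L * c j))
      = ∑ j, μ j * (t j * t j) - 2 * L * L + L * L * 1 := by
    have : ∀ j, μ j * ((t j - L * c j) * (t j - L * c j))
        = μ j * (t j * t j) - 2 * L * (c j * (μ j * t j)) + L * L * μ j * (c j * c j) := by
      intro j
      ring
    simp_rw [this, hc, mul_one]
    rw [Finset.sum_add_distrib, Finset.sum_sub_distrib, ← Finset.mul_sum, ← Finset.mul_sum, hμ1,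
      ← hLdef, mul_one]
  rw [hexp2] at hexp
  nlinarith

end Vale.Agent.P047
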