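import Mathlib
import Vale.Agent.P047.Unamb

namespace Vale.Agent.P047

open Finset

variable {n : ℕ}

/-- weighted one-sided estimate: a nonnegative combination of subcube indicators of codimension
at most `d` which is pointwise at most one. -/
theorem packing_le_w {m : ℕ} (d : ℕ) (hd : 1 ≤ d) (c : Fin m → ℝ) (hc : ∀ j, 0 ≤ c j)
    (P Q : Fin m → Finset (Fin n))
    (hPQ : ∀ j, Disjoint (P j) (Q j)) (hw : ∀ j, (P j).card + (Q j).card ≤ d)
    (hpack : ∀ x, ∑ j, c j * ind (P j) (Q j) x ≤ 1) :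
    ∑ j, c j * ((1 / 2 : ℝ) ^ ((P j).card + (Q j).card) * (((P j).card : ℝ) - (Q j).card))
      ≤ Real.sqrt ((d + 1) / Real.exp 1) := by
  set δ : ℝ := 1 / Real.sqrt (d + 1) with hδ
  have hd1 : (0 : ℝ) < (d : ℝ) + 1 := by positivity
  have hs : 0 < Real.sqrt (d + 1) := Real.sqrt_pos.mpr hd1
  have hδ0 : 0 < δ := by positivity
  have hδ2 : δ ^ 2 = 1 / ((d : ℝ) + 1) := by
    rw [hδ, div_pow, Real.sq_sqrt hd1.le, one_pow]
  have hδ1 : δ < 1 := by
    have : δ ^ 2 < 1 := by
      rw [hδ2, div_lt_one hd1]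
      have : (1 : ℝ) ≤ d := by exact_mod_cast hd
      linarith
    nlinarith
  have hsum : ∑ j, c j * (((1 + δ) / 2) ^ (P j).card * ((1 - δ) / 2) ^ (Q j).card) ≤ 1 := by
    calc ∑ j, c j * (((1 + δ) / 2) ^ (P j).card * ((1 - δ) / 2) ^ (Q j).card)
        = ∑ j, ∑ x : Fin n → Bool, c j * ind (P j) (Q j) x * wt δ x := by
          apply Finset.sum_congr rfl
          intro j _
          rw [← sum_ind_wt _ _ (hPQ j), Finset.mul_sum]
          apply Finset.sum_congr rfl
          intro x _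
          ring
      _ = ∑ x : Fin n → Bool, (∑ j, c j * ind (P j) (Q j) x) * wt δ x := by
          rw [Finset.sum_comm]
          apply Finset.sum_congr rfl
          intro x _
          rw [Finset.sum_mul]
      _ ≤ ∑ x : Fin n → Bool, 1 * wt δ x := by
          apply Finset.sum_le_sum
          intro x _
          exact mul_le_mul_of_nonneg_right (hpack x) (wt_nonneg (by linarith) hδ1.le x)
      _ = 1 := by simp [sum_wt]
  have hterm : ∀ j, Real.exp (1 / 2) * δ *
      ((1 / 2 : ℝ) ^ ((P j).card + (Q j).card) * (((P j).card : ℝ) - (Q j).card))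
      ≤ ((1 + δ) / 2) ^ (P j).card * ((1 - δ) / 2) ^ (Q j).card := by
    intro j
    have hab : (((P j).card : ℝ) + (Q j).card) * δ ^ 2 ≤ 1 - δ ^ 2 := by
      rw [hδ2]
      have h1 : (((P j).card : ℝ) + (Q j).card) ≤ d := by exact_mod_cast hw j
      have h2 : 1 - 1 / ((d : ℝ) + 1) = d * (1 / ((d : ℝ) + 1)) := by
        field_simp
        ring
      rw [h2]
      exact mul_le_mul_of_nonneg_right h1 (by positivity)
    have hk := key_ineq hδ0 hδ1 (P j).card (Q j).card hab
    have e : ((1 + δ) / 2) ^ (P j).card * ((1 - δ) / 2) ^ (Q j).card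
        = (1 / 2 : ℝ) ^ ((P j).card + (Q j).card) * ((1 + δ) ^ (P j).card * (1 - δ) ^ (Q j).card) := by
      rw [div_pow, div_pow, pow_add, one_div, inv_pow, inv_pow]
      field_simp
    rw [e]
    have hp : (0 : ℝ) ≤ (1 / 2 : ℝ) ^ ((P j).card + (Q j).card) := by positivity
    nlinarith [mul_le_mul_of_nonneg_left hk hp]
  have hall : Real.exp (1 / 2) * δ *
      ∑ j, c j * ((1 / 2 : ℝ) ^ ((P j).card + (Q j).card) * (((P j).card : ℝ) - (Q j).card))
      ≤ 1 := by
    rw [Finset.mul_sum]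
    refine (Finset.sum_le_sum (fun j _ => ?_)).trans hsum
    calc Real.exp (1 / 2) * δ * (c j * ((1 / 2 : ℝ) ^ ((P j).card + (Q j).card)
          * (((P j).card : ℝ) - (Q j).card)))
        = c j * (Real.exp (1 / 2) * δ * ((1 / 2 : ℝ) ^ ((P j).card + (Q j).card)
          * (((P j).card : ℝ) - (Q j).card))) := by ring
      _ ≤ _ := mul_le_mul_of_nonneg_left (hterm j) (hc j)
  have hval : Real.sqrt ((d + 1) / Real.exp 1) = 1 / (Real.exp (1 / 2) * δ) := by
    rw [Real.sqrt_div hd1.le, hδ]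
    have : Real.sqrt (Real.exp 1) = Real.exp (1 / 2) := by
      rw [Real.sqrt_eq_iff_mul_self_eq (Real.exp_pos _).le (Real.exp_pos _).le, ← Real.exp_add]
      norm_num
    rw [this]
    field_simp
  rw [hval, le_div_iff₀ (by positivity)]
  linarith

/-- **Conical junta bound.** -/
theorem lev_conical {m : ℕ} (d : ℕ) (hd : 1 ≤ d) (c : Fin m → ℝ) (hc : ∀ j, 0 ≤ c j)
    (P Q : Fin m → Finset (Fin n))
    (hPQ : ∀ j, Disjoint (P j) (Q j)) (hw : ∀ j, (P j).card + (Q j).card ≤ d)
    (h : (Fin n → Bool) → ℝ) (hh : ∀ x, h x = ∑ j, c j * ind (P j) (Q j) x)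
    (hle : ∀ x, h x ≤ 1) :
    |∑ i, fhat h {i}| ≤ Real.sqrt ((d + 1) / Real.exp 1) := by
  have hh' : ∀ x, h x = 0 + ∑ j, c j * ind (P j) (Q j) x := by
    intro x
    rw [hh x, zero_add]
  rw [lev_affine 0 c P Q hPQ h hh']
  have h1 := packing_le_w d hd c hc P Q hPQ hw (fun x => by rw [← hh x]; exact hle x)
  have h2 := packing_le_w d hd c hc Q P (fun j => (hPQ j).symm)
    (fun j => by rw [add_comm]; exact hw j)
    (fun x => by
      have : ∀ j, ind (Q j) (P j) x = ind (P j) (Q j) (fun i => !x i) := fun j => ind_swap _ _ x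
      rw [Finset.sum_congr rfl (fun j _ => by rw [this j])]
      rw [← hh]
      exact hle _)
  have h3 : ∑ j, c j * ((1 / 2 : ℝ) ^ ((Q j).card + (P j).card) * (((Q j).card : ℝ) - (P j).card))
      = -∑ j, c j * ((1 / 2 : ℝ) ^ ((P j).card + (Q j).card)
          * (((P j).card : ℝ) - (Q j).card)) := by
    rw [← Finset.sum_neg_distrib]
    apply Finset.sum_congr rfl
    intro j _
    rw [add_comm]
    ring
  rw [h3] at h2
  rw [abs_le]
  constructor <;> linarith

end Vale.Agent.P047
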