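import Mathlib
import Vale.Agent.P047.Expand

namespace Vale.Agent.P047

open Finset

variable {n : ℕ}

/-- restriction of `f` obtained by fixing coordinate `i` to the bit `b` -/
def res (f : (Fin (n + 1) → Bool) → ℝ) (i : Fin (n + 1)) (b : Bool) : (Fin n → Bool) → ℝ :=
  fun y => f (i.insertNth b y)

theorem sum_split (G : (Fin (n + 1) → Bool) → ℝ) (i : Fin (n + 1)) :
    ∑ x, G x = ∑ y : Fin n → Bool, G (i.insertNth true y)
      + ∑ y : Fin n → Bool, G (i.insertNth false y) := by
  rw [← (Fin.insertNthEquiv (fun _ => Bool) i).sum_comp, Fintype.sum_prod_type]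
  simp [Fin.insertNthEquiv]

/-- lift of a set of coordinates -/
def up (i : Fin (n + 1)) (S : Finset (Fin n)) : Finset (Fin (n + 1)) := S.map i.succAboveEmb

theorem card_up (i : Fin (n + 1)) (S : Finset (Fin n)) : (up i S).card = S.card := by
  simp [up]

theorem not_mem_up (i : Fin (n + 1)) (S : Finset (Fin n)) : i ∉ up i S := by
  simp [up, Fin.succAbove_ne]

theorem prod_up (i : Fin (n + 1)) (S : Finset (Fin n)) (b : Bool) (y : Fin n → Bool) :
    ∏ j ∈ up i S, sg ((i.insertNth b y : Fin (n + 1) → Bool) j) = ∏ j ∈ S, sg (y j) := by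
  simp [up, Finset.prod_map]

theorem prod_insert_up (i : Fin (n + 1)) (S : Finset (Fin n)) (b : Bool) (y : Fin n → Bool) :
    ∏ j ∈ insert i (up i S), sg ((i.insertNth b y : Fin (n + 1) → Bool) j)
      = sg b * ∏ j ∈ S, sg (y j) := by
  rw [Finset.prod_insert (not_mem_up i S), prod_up]
  simp

theorem fhat_up (f : (Fin (n + 1) → Bool) → ℝ) (i : Fin (n + 1)) (S : Finset (Fin n)) :
    fhat f (up i S) = (fhat (res f i true) S + fhat (res f i false) S) / 2 := by
  unfold fhat res
  rw [sum_split _ i]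
  simp_rw [prod_up]
  rw [pow_succ]
  field_simp

theorem fhat_insert_up (f : (Fin (n + 1) → Bool) → ℝ) (i : Fin (n + 1)) (S : Finset (Fin n)) :
    fhat f (insert i (up i S)) = (fhat (res f i true) S - fhat (res f i false) S) / 2 := by
  unfold fhat res
  rw [sum_split _ i]
  simp_rw [prod_insert_up]
  rw [pow_succ]
  simp only [sg_true, sg_false]
  have : ∑ y : Fin n → Bool, f (i.insertNth false y) * (-1 * ∏ j ∈ S, sg (y j))
      = - ∑ y : Fin n → Bool, f (i.insertNth false y) * ∏ j ∈ S, sg (y j) := by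
    rw [← Finset.sum_neg_distrib]
    apply Finset.sum_congr rfl
    intro y _
    ring
  rw [this]
  simp only [one_mul]
  field_simp
  ring

theorem fhat_res (f : (Fin (n + 1) → Bool) → ℝ) (i : Fin (n + 1)) (b : Bool)
    (S : Finset (Fin n)) :
    fhat (res f i b) S = fhat f (up i S) + sg b * fhat f (insert i (up i S)) := by
  rw [fhat_up, fhat_insert_up]
  cases b <;> simp [sg] <;> ring

theorem deg_res (f : (Fin (n + 1) → Bool) → ℝ) (i : Fin (n + 1)) (b : Bool) (k : ℕ)
    (hdeg : ∀ S : Finset (Fin (n + 1)), k < S.card → fhat f S = 0) :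
    ∀ S : Finset (Fin n), k < S.card → fhat (res f i b) S = 0 := by
  intro S hS
  rw [fhat_res, hdeg _ (by rw [card_up]; exact hS),
    hdeg _ (by rw [Finset.card_insert_of_notMem (not_mem_up i S), card_up]; omega)]
  simp

theorem up_singleton (i : Fin (n + 1)) (j : Fin n) : up i {j} = {i.succAbove j} := by
  simp [up]

theorem up_empty (i : Fin (n + 1)) : up i (∅ : Finset (Fin n)) = ∅ := by
  simp [up]

/-- level-one sum -/
noncomputable def lev (f : (Fin n → Bool) → ℝ) : ℝ := ∑ i, fhat f {i}

theorem lev_split (f : (Fin (n + 1) → Bool) → ℝ) (i : Fin (n + 1)) :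
    lev f = fhat f {i} + (lev (res f i true) + lev (res f i false)) / 2 := by
  unfold lev
  rw [Fin.sum_univ_succAbove _ i]
  congr 1
  rw [← Finset.sum_add_distrib, Finset.sum_div]
  apply Finset.sum_congr rfl
  intro j _
  rw [← up_singleton, fhat_up]

theorem fhat_singleton_eq (f : (Fin (n + 1) → Bool) → ℝ) (i : Fin (n + 1)) :
    fhat f {i} = (fhat (res f i true) ∅ - fhat (res f i false) ∅) / 2 := by
  have := fhat_insert_up f i ∅
  rw [up_empty] at this
  simpa using this

theorem fhat_empty_eq (f : (Fin (n + 1) → Bool) → ℝ) (i : Fin (n + 1)) :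
    fhat f ∅ = (fhat (res f i true) ∅ + fhat (res f i false) ∅) / 2 := by
  have := fhat_up f i ∅
  rw [up_empty] at this
  exact this

end Vale.Agent.P047
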