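import Mathlib
import Vale.Agent.P047.Restrict

namespace Vale.Agent.P047

open Finset

variable {n : ℕ}

theorem fhat_sub (g h : (Fin n → Bool) → ℝ) (S : Finset (Fin n)) :
    fhat (fun x => g x - h x) S = fhat g S - fhat h S := by
  unfold fhat
  rw [← sub_div, ← Finset.sum_sub_distrib]
  congr 1
  apply Finset.sum_congr rfl
  intro x _
  ring

theorem fhat_div_two (g : (Fin n → Bool) → ℝ) (S : Finset (Fin n)) :
    fhat (fun x => g x / 2) S = fhat g S / 2 := by
  unfold fhat
  have : ∑ x : Fin n → Bool, g x / 2 * ∏ i ∈ S, sg (x i)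
      = (∑ x : Fin n → Bool, g x * ∏ i ∈ S, sg (x i)) / 2 := by
    rw [Finset.sum_div]
    apply Finset.sum_congr rfl
    intro x _
    ring
  rw [this]
  ring

theorem lev_sub (g h : (Fin n → Bool) → ℝ) :
    lev (fun x => g x - h x) = lev g - lev h := by
  unfold lev
  rw [← Finset.sum_sub_distrib]
  apply Finset.sum_congr rfl
  intro i _
  rw [fhat_sub]

theorem lev_div_two (g : (Fin n → Bool) → ℝ) :
    lev (fun x => g x / 2) = lev g / 2 := by
  unfold lev
  rw [Finset.sum_div]
  apply Finset.sum_congr rfl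
  intro i _
  rw [fhat_div_two]

/-- the discrete derivative (difference of the two restrictions) -/
def dif (f : (Fin (n + 1) → Bool) → ℝ) (i : Fin (n + 1)) : (Fin n → Bool) → ℝ :=
  fun y => res f i true y - res f i false y

theorem fhat_dif (f : (Fin (n + 1) → Bool) → ℝ) (i : Fin (n + 1)) (S : Finset (Fin n)) :
    fhat (dif f i) S = 2 * fhat f (insert i (up i S)) := by
  unfold dif
  rw [fhat_sub, fhat_insert_up]
  ring

theorem deg_dif (f : (Fin (n + 1) → Bool) → ℝ) (i : Fin (n + 1)) (k : ℕ)
    (hdeg : ∀ S : Finset (Fin (n + 1)), k + 1 < S.card → fhat f S = 0) :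
    ∀ S : Finset (Fin n), k < S.card → fhat (dif f i) S = 0 := by
  intro S hS
  rw [fhat_dif, hdeg _ (by rw [Finset.card_insert_of_notMem (not_mem_up i S), card_up]; omega)]
  simp

/-- key recursion -/
theorem lam_split (f : (Fin (n + 1) → Bool) → ℝ) (i : Fin (n + 1)) (a : ℝ) :
    lev f + a * fhat f ∅ = (lev (res f i false) + a * fhat (res f i false) ∅)
      + (lev (dif f i) + (a + 1) * fhat (dif f i) ∅) / 2 := by
  rw [lev_split f i, fhat_singleton_eq f i, fhat_empty_eq f i]
  unfold dif
  rw [lev_sub, fhat_sub]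
  ring

theorem fhat_empty_of_deg_zero (h : (Fin n → Bool) → ℝ)
    (hdeg : ∀ S : Finset (Fin n), 0 < S.card → fhat h S = 0) (x : Fin n → Bool) :
    h x = fhat h ∅ := by
  rw [inversion h x]
  rw [Finset.sum_eq_single (∅ : Finset (Fin n))]
  · simp
  · intro R _ hR
    rw [hdeg R (Finset.card_pos.mpr (Finset.nonempty_iff_ne_empty.mpr hR))]
    simp
  · intro h0
    exact absurd (Finset.mem_univ _) h0

/-- granularity of `lev h + a * mean h` for integer valued `h` of degree at most `k`,
when `a ≡ k (mod 2)`. -/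
theorem gran (k : ℕ) : ∀ (n : ℕ) (h : (Fin n → Bool) → ℝ), (∀ x, ∃ m : ℤ, h x = m) →
    (∀ S : Finset (Fin n), k < S.card → fhat h S = 0) → ∀ a : ℤ, Even (a - k) →
    ∃ m : ℤ, (2 : ℝ) ^ k * (lev h + a * fhat h ∅) = 2 * m := by
  induction k with
  | zero =>
    intro n h hint hdeg a ha
    obtain ⟨m0, hm0⟩ := hint (fun _ => true)
    have h1 : fhat h ∅ = m0 := by rw [← fhat_empty_of_deg_zero h hdeg, hm0]
    have h2 : lev h = 0 := by
      unfold lev
      apply Finset.sum_eq_zero
      intro i _
      exact hdeg _ (by simp)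
    obtain ⟨c, hc⟩ := ha
    refine ⟨c * m0, ?_⟩
    have ha' : a = c + c := by simpa using hc
    rw [h1, h2, ha']
    push_cast
    ring
  | succ k ih =>
    intro n
    induction n with
    | zero =>
      intro h hint hdeg a ha
      obtain ⟨m0, hm0⟩ := hint (fun _ => true)
      have h1 : fhat h ∅ = m0 := by
        unfold fhat
        rw [← hm0]
        simp
        congr 1
        exact Subsingleton.elim _ _
      have h2 : lev h = 0 := by
        unfold lev
        simp
      refine ⟨2 ^ k * a * m0, ?_⟩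
      rw [h1, h2]
      push_cast
      ring
    | succ n ihn =>
      intro h hint hdeg a ha
      obtain ⟨m1, hm1⟩ := ihn (res h 0 false) (fun y => hint _) (deg_res h 0 false (k + 1) hdeg) a ha
      have hint2 : ∀ y, ∃ m : ℤ, dif h 0 y = m := by
        intro y
        obtain ⟨p, hp⟩ := hint ((0 : Fin (n + 1)).insertNth true y)
        obtain ⟨q, hq⟩ := hint ((0 : Fin (n + 1)).insertNth false y)
        refine ⟨p - q, ?_⟩
        unfold dif res
        rw [hp, hq]
        push_cast
        ring
      have hpar : Even ((a + 1) - (k : ℤ)) := by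
        have : (a + 1) - (k : ℤ) = (a - ((k + 1 : ℕ) : ℤ)) + 2 := by push_cast; ring
        rw [this]
        exact ha.add even_two
      obtain ⟨m2, hm2⟩ := ih n (dif h 0) hint2 (deg_dif h 0 k hdeg) (a + 1) hpar
      refine ⟨m1 + m2, ?_⟩
      rw [lam_split h 0 a]
      push_cast at hm2 ⊢
      have e : (2 : ℝ) ^ (k + 1) * (lev (res h 0 false) + a * fhat (res h 0 false) ∅
          + (lev (dif h 0) + (a + 1) * fhat (dif h 0) ∅) / 2)
          = (2 : ℝ) ^ (k + 1) * (lev (res h 0 false) + a * fhat (res h 0 false) ∅)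
            + (2 : ℝ) ^ k * (lev (dif h 0) + (a + 1) * fhat (dif h 0) ∅) := by
        rw [pow_succ]
        ring
      rw [e, hm1, hm2]
      ring

/-- For a Boolean function of degree at most four, the level-one sum is a multiple of `1/4`. -/
theorem quarter : ∀ (n : ℕ) (f : (Fin n → Bool) → ℝ), (∀ x, f x = 1 ∨ f x = -1) →
    (∀ S : Finset (Fin n), 4 < S.card → fhat f S = 0) → ∃ m : ℤ, 4 * lev f = m := by
  intro n
  induction n with
  | zero =>
    intro f _ _
    exact ⟨0, by simp [lev]⟩
  | succ n ihn =>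
    intro f hf hdeg
    obtain ⟨m1, hm1⟩ := ihn (res f 0 false) (fun y => hf _) (deg_res f 0 false 4 hdeg)
    have hint : ∀ y, ∃ m : ℤ, (fun y => dif f 0 y / 2) y = m := by
      intro y
      simp only [dif, res]
      rcases hf ((0 : Fin (n + 1)).insertNth true y) with h1 | h1 <;>
        rcases hf ((0 : Fin (n + 1)).insertNth false y) with h2 | h2 <;> rw [h1, h2]
      · exact ⟨0, by norm_num⟩
      · exact ⟨1, by norm_num⟩
      · exact ⟨-1, by norm_num⟩
      · exact ⟨0, by norm_num⟩
    have hd : ∀ S : Finset (Fin n), 3 < S.card → fhat (fun y => dif f 0 y / 2) S = 0 := by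
      intro S hS
      rw [fhat_div_two, deg_dif f 0 3 hdeg S hS]
      simp
    obtain ⟨m2, hm2⟩ := gran 3 n (fun y => dif f 0 y / 2) hint hd 1 (by decide)
    rw [fhat_div_two, lev_div_two] at hm2
    have h0 := lam_split f 0 0
    refine ⟨m1 + m2, ?_⟩
    push_cast at hm2 ⊢
    have h3 : lev f = lev (res f 0 false) + (lev (dif f 0) + fhat (dif f 0) ∅) / 2 := by
      have := h0
      simp only [zero_mul, add_zero, zero_add, one_mul] at this
      exact this
    rw [h3]
    linarith

end Vale.Agent.P047
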