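import Mathlib
import Vale.Agent.P047.Gran

namespace Vale.Agent.P047

open Finset

variable {n : ℕ}

/-- integer sign of a bit -/
def sgZ (b : Bool) : ℤ := if b then 1 else -1

theorem sg_eq_cast (b : Bool) : sg b = (sgZ b : ℝ) := by
  cases b <;> simp [sg, sgZ]

/-- integer test function: the linear form plus all characters of level seven -/
def gZ (x : Fin n → Bool) : ℤ :=
  ∑ i, sgZ (x i) + ∑ S ∈ Finset.powersetCard 7 (Finset.univ : Finset (Fin n)), ∏ j ∈ S, sgZ (x j)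

theorem sum_abs_gZ_lt (hn : n ≤ 8) : ∑ x : Fin n → Bool, |gZ x| < 2 * 2 ^ n := by
  interval_cases n <;> decide +kernel

theorem lev_mul_pow (f : (Fin n → Bool) → ℝ) :
    lev f * 2 ^ n = ∑ x, f x * ∑ i, sg (x i) := by
  unfold lev fhat
  rw [Finset.sum_mul]
  have : ∀ i : Fin n, (∑ x : Fin n → Bool, f x * ∏ j ∈ ({i} : Finset (Fin n)), sg (x j)) / 2 ^ n * 2 ^ n
      = ∑ x : Fin n → Bool, f x * sg (x i) := by
    intro i
    rw [div_mul_cancel₀ _ (by positivity)]
    simp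
  simp_rw [this]
  rw [Finset.sum_comm]
  apply Finset.sum_congr rfl
  intro x _
  rw [Finset.mul_sum]

theorem lev_mul_pow' (f : (Fin n → Bool) → ℝ)
    (hdeg : ∀ S : Finset (Fin n), 4 < S.card → fhat f S = 0) :
    lev f * 2 ^ n = ∑ x, f x * (gZ x : ℝ) := by
  have h0 : ∑ S ∈ Finset.powersetCard 7 (Finset.univ : Finset (Fin n)), fhat f S * 2 ^ n = 0 := by
    apply Finset.sum_eq_zero
    intro S hS
    rw [hdeg S (by rw [(Finset.mem_powersetCard.mp hS).2]; norm_num)]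
    simp
  have h1 : ∑ S ∈ Finset.powersetCard 7 (Finset.univ : Finset (Fin n)), fhat f S * 2 ^ n
      = ∑ x, f x * ∑ S ∈ Finset.powersetCard 7 (Finset.univ : Finset (Fin n)), ∏ j ∈ S, sg (x j) := by
    unfold fhat
    have : ∀ S : Finset (Fin n), (∑ x : Fin n → Bool, f x * ∏ j ∈ S, sg (x j)) / 2 ^ n * 2 ^ n
        = ∑ x : Fin n → Bool, f x * ∏ j ∈ S, sg (x j) := by
      intro S
      rw [div_mul_cancel₀ _ (by positivity)]
    simp_rw [this]
    rw [Finset.sum_comm]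
    apply Finset.sum_congr rfl
    intro x _
    rw [Finset.mul_sum]
  have h2 : lev f * 2 ^ n = lev f * 2 ^ n
      + ∑ S ∈ Finset.powersetCard 7 (Finset.univ : Finset (Fin n)), fhat f S * 2 ^ n := by
    rw [h0, add_zero]
  rw [h2, h1, lev_mul_pow, ← Finset.sum_add_distrib]
  apply Finset.sum_congr rfl
  intro x _
  unfold gZ
  push_cast
  simp_rw [sg_eq_cast]
  ring

theorem lev_lt_two_of_small (hn : n ≤ 8) (f : (Fin n → Bool) → ℝ)
    (hf : ∀ x, f x = 1 ∨ f x = -1)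
    (hdeg : ∀ S : Finset (Fin n), 4 < S.card → fhat f S = 0) : lev f < 2 := by
  have h1 : lev f * 2 ^ n ≤ ∑ x : Fin n → Bool, |(gZ x : ℝ)| := by
    rw [lev_mul_pow' f hdeg]
    apply Finset.sum_le_sum
    intro x _
    rcases hf x with h | h <;> rw [h]
    · rw [one_mul]; exact le_abs_self _
    · rw [neg_one_mul]; exact neg_le_abs _
  have h2 : ∑ x : Fin n → Bool, |(gZ x : ℝ)| < 2 * 2 ^ n := by
    have := sum_abs_gZ_lt (n := n) hn
    have h3 : ((∑ x : Fin n → Bool, |gZ x| : ℤ) : ℝ) < ((2 * 2 ^ n : ℤ) : ℝ) := by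
      exact_mod_cast this
    push_cast at h3
    exact h3
  have h4 : lev f * 2 ^ n < 2 * 2 ^ n := lt_of_le_of_lt h1 h2
  exact lt_of_mul_lt_mul_right h4 (by positivity)

end Vale.Agent.P047
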