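import Mathlib
import Vale.Agent.P047.Small

namespace Vale.Agent.P047

open Finset

/-- **Degree four.**  Every Boolean function of degree at most four has level-one sum at most
`7/4`. -/
theorem lev_le_of_deg_four : ∀ (n : ℕ) (f : (Fin n → Bool) → ℝ), (∀ x, f x = 1 ∨ f x = -1) →
    (∀ S : Finset (Fin n), 4 < S.card → fhat f S = 0) → lev f ≤ 7 / 4 := by
  intro n
  induction n with
  | zero =>
    intro f _ _
    simp [lev]
    norm_num
  | succ n ihn =>
    intro f hf hdeg
    by_contra hcon
    push Not at hcon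
    obtain ⟨m, hm⟩ := quarter (n + 1) f hf hdeg
    have hm8 : (8 : ℤ) ≤ m := by
      have : (7 : ℝ) < m := by rw [← hm]; linarith
      have : (7 : ℤ) < m := by exact_mod_cast this
      omega
    have hL : 2 ≤ lev f := by
      have : (8 : ℝ) ≤ m := by exact_mod_cast hm8
      linarith
    have hcoef : ∀ i : Fin (n + 1), lev f - 7 / 4 ≤ fhat f {i} := by
      intro i
      have h1 := ihn (res f i true) (fun y => hf _) (deg_res f i true 4 hdeg)
      have h2 := ihn (res f i false) (fun y => hf _) (deg_res f i false 4 hdeg)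
      have h3 := lev_split f i
      linarith
    have hsum : ((n + 1 : ℕ) : ℝ) * (lev f - 7 / 4) ≤ lev f := by
      have : ∑ _i : Fin (n + 1), (lev f - 7 / 4) ≤ ∑ i : Fin (n + 1), fhat f {i} :=
        Finset.sum_le_sum (fun i _ => hcoef i)
      rw [Finset.sum_const, Finset.card_univ, Fintype.card_fin, nsmul_eq_mul] at this
      exact this
    have hn8 : n + 1 ≤ 8 := by
      by_contra h9
      push Not at h9
      have h9' : (9 : ℝ) ≤ ((n + 1 : ℕ) : ℝ) := by exact_mod_cast h9
      have hpos : 0 ≤ lev f - 7 / 4 := by linarith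
      have : 9 * (lev f - 7 / 4) ≤ ((n + 1 : ℕ) : ℝ) * (lev f - 7 / 4) :=
        mul_le_mul_of_nonneg_right h9' hpos
      linarith
    have := lev_lt_two_of_small hn8 f hf hdeg
    linarith

/-- the extremal function on seven variables (quadratic residue tournament / Fano plane):
it is `-1` exactly on the seven pairwise disjoint subcubes
`x_{j+1} = x_{j+2} = x_{j+4} = -1, x_j = 1`, `j ∈ ℤ/7`. -/
def f7Z (x : Fin 7 → Bool) : ℤ :=
  if ∃ j : Fin 7, x (j + 1) = false ∧ x (j + 2) = false ∧ x (j + 4) = false ∧ x j = true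
  then -1 else 1

theorem f7Z_deg : ∀ S : Finset (Fin 7), 4 < S.card →
    ∑ x : Fin 7 → Bool, f7Z x * ∏ i ∈ S, sgZ (x i) = 0 := by
  decide +kernel

theorem f7Z_lev : ∑ i : Fin 7, ∑ x : Fin 7 → Bool, f7Z x * sgZ (x i) = 224 := by
  decide +kernel

theorem f7Z_bool (x : Fin 7 → Bool) : f7Z x = 1 ∨ f7Z x = -1 := by
  unfold f7Z
  split_ifs <;> simp

end Vale.Agent.P047
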