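import Mathlib
import Vale.Agent.P047.Assemble

namespace Vale.Agent.P047

open Finset

variable {n : ℕ}

theorem kappa_base (τ : ℝ) (h0 : 0 ≤ τ) (h1 : τ ≤ 1 / 2) :
    1 + τ ≤ Real.exp (2 * τ + 4 / 3 * τ ^ 2) * (1 - τ) := by
  have e1 : 1 + τ ≤ Real.exp τ := by linarith [Real.add_one_le_exp τ]
  have e2 : 1 + 4 / 3 * τ ^ 2 ≤ Real.exp (4 / 3 * τ ^ 2) := by
    linarith [Real.add_one_le_exp (4 / 3 * τ ^ 2)]
  have e3 : Real.exp (2 * τ + 4 / 3 * τ ^ 2)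
      = Real.exp τ * Real.exp τ * Real.exp (4 / 3 * τ ^ 2) := by
    rw [← Real.exp_add, ← Real.exp_add]
    congr 1
    ring
  have e4 : (1 + τ) * (1 + τ) * (1 + 4 / 3 * τ ^ 2)
      ≤ Real.exp τ * Real.exp τ * Real.exp (4 / 3 * τ ^ 2) := by
    apply mul_le_mul (mul_le_mul e1 e1 (by linarith) (Real.exp_pos _).le) e2 (by positivity)
    positivity
  have e5 : 1 ≤ (1 + τ) * (1 - τ) * (1 + 4 / 3 * τ ^ 2) := by
    have : 0 ≤ τ ^ 2 * (1 - 4 * τ ^ 2) := by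
      apply mul_nonneg (sq_nonneg _)
      nlinarith
    nlinarith
  rw [e3]
  have h3 : 0 ≤ 1 - τ := by linarith
  calc 1 + τ = (1 + τ) * 1 := by ring
    _ ≤ (1 + τ) * ((1 + τ) * (1 - τ) * (1 + 4 / 3 * τ ^ 2)) :=
        mul_le_mul_of_nonneg_left e5 (by linarith)
    _ = (1 + τ) * (1 + τ) * (1 + 4 / 3 * τ ^ 2) * (1 - τ) := by ring
    _ ≤ Real.exp τ * Real.exp τ * Real.exp (4 / 3 * τ ^ 2) * (1 - τ) :=
        mul_le_mul_of_nonneg_right e4 h3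

theorem kappa_bound (τ : ℝ) (h0 : 0 ≤ τ) (h1 : τ ≤ 1 / 2) (d : ℕ) :
    (1 + τ) ^ d ≤ Real.exp (d * (2 * τ + 4 / 3 * τ ^ 2)) * (1 - τ) ^ d := by
  rw [Real.exp_nat_mul, ← mul_pow]
  exact pow_le_pow_left₀ (by linarith) (kappa_base τ h0 h1) d

theorem tau_facts (k : ℕ) (hk : 1 ≤ k) :
    0 < Real.sin (Real.pi / (2 * (2 * k + 1)))
    ∧ Real.sin (Real.pi / (2 * (2 * k + 1))) ≤ Real.pi / (2 * (2 * k + 1))
    ∧ Real.sin (Real.pi / (2 * (2 * k + 1))) ≤ 1 / 2 := by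
  have hk' : (1 : ℝ) ≤ k := by exact_mod_cast hk
  have hpos : 0 < Real.pi / (2 * (2 * (k : ℝ) + 1)) := by positivity
  have hle : Real.pi / (2 * (2 * (k : ℝ) + 1)) ≤ Real.pi / 6 := by
    apply div_le_div_of_nonneg_left Real.pi_pos.le (by norm_num)
    linarith
  refine ⟨?_, Real.sin_le hpos.le, ?_⟩
  · apply Real.sin_pos_of_pos_of_lt_pi hpos
    have : Real.pi / 6 < Real.pi := by linarith [Real.pi_pos]
    linarith
  · rw [← Real.sin_pi_div_six]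
    apply Real.sin_le_sin_of_le_of_le_pi_div_two
    · linarith [Real.pi_pos]
    · linarith [Real.pi_pos]
    · exact hle

/-- Bound in terms of an upper bound for the exponential factor. -/
theorem bound_of_exponent (f : (Fin n → Bool) → ℝ) (hf : ∀ x, f x = 1 ∨ f x = -1) (d k : ℕ)
    (hk : 1 ≤ k) (hd : d ≤ 2 * k + 2)
    (hdeg : ∀ S : Finset (Fin n), d < S.card → fhat f S = 0) (Kmax : ℝ)
    (hK : Real.exp (d * (2 * Real.sin (Real.pi / (2 * (2 * k + 1)))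
      + 4 / 3 * Real.sin (Real.pi / (2 * (2 * k + 1))) ^ 2)) ≤ Kmax) :
    ∑ i, fhat f {i} ≤ (2 * k + 1) * (1 - 16 / ((1 + Kmax) * Real.pi ^ 2)) := by
  obtain ⟨τ, hτ⟩ : ∃ τ, τ = Real.sin (Real.pi / (2 * (2 * k + 1))) := ⟨_, rfl⟩
  obtain ⟨t0, t1, t2⟩ := tau_facts k hk
  rw [← hτ] at t0 t1 t2 hK
  have hb := explicit_bound f hf d k hk hd hdeg τ hτ t0.le (by linarith)
  have hkap := kappa_bound τ t0.le t2 d
  obtain ⟨K1, hK1⟩ : ∃ K1, K1 = (1 - τ) ^ d := ⟨_, rfl⟩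
  obtain ⟨K2, hK2⟩ : ∃ K2, K2 = (1 + τ) ^ d := ⟨_, rfl⟩
  rw [← hK1, ← hK2] at hb hkap
  have hK1pos : 0 < K1 := by rw [hK1]; apply pow_pos; linarith
  have hK2pos : 0 < K2 := by rw [hK2]; apply pow_pos; linarith
  have hKmax : 0 < Kmax := lt_of_lt_of_le (Real.exp_pos _) hK
  have hK2le : K2 ≤ Kmax * K1 := hkap.trans (mul_le_mul_of_nonneg_right hK hK1pos.le)
  have h1B : 2 / (1 + Kmax) ≤ 1 - (K2 - K1) / (K2 + K1) := by
    have : 1 - (K2 - K1) / (K2 + K1) = 2 * K1 / (K2 + K1) := by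
      field_simp
      ring
    rw [this, div_le_div_iff₀ (by linarith) (by linarith)]
    nlinarith
  have hm : (0 : ℝ) < 2 * k + 1 := by positivity
  have hden : (2 * (k : ℝ) + 1) * τ ^ 2 ≤ Real.pi ^ 2 / (4 * (2 * k + 1)) := by
    have : τ ^ 2 ≤ (Real.pi / (2 * (2 * k + 1))) ^ 2 := pow_le_pow_left₀ t0.le t1 2
    calc (2 * (k : ℝ) + 1) * τ ^ 2 ≤ (2 * k + 1) * (Real.pi / (2 * (2 * k + 1))) ^ 2 :=
          mul_le_mul_of_nonneg_left this hm.le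
      _ = Real.pi ^ 2 / (4 * (2 * k + 1)) := by
          field_simp
          ring
  have hdenpos : 0 < (2 * (k : ℝ) + 1) * τ ^ 2 := by positivity
  have hmain : (2 * (k : ℝ) + 1) * (16 / ((1 + Kmax) * Real.pi ^ 2))
      ≤ 2 * (1 - (K2 - K1) / (K2 + K1)) / ((2 * k + 1) * τ ^ 2) := by
    calc (2 * (k : ℝ) + 1) * (16 / ((1 + Kmax) * Real.pi ^ 2))
        = 2 * (2 / (1 + Kmax)) / (Real.pi ^ 2 / (4 * (2 * k + 1))) := by
          have := Real.pi_pos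
          field_simp
          ring
      _ ≤ 2 * (2 / (1 + Kmax)) / ((2 * k + 1) * τ ^ 2) := by
          apply div_le_div_of_nonneg_left (by positivity) hdenpos hden
      _ ≤ 2 * (1 - (K2 - K1) / (K2 + K1)) / ((2 * k + 1) * τ ^ 2) := by
          apply div_le_div_of_nonneg_right _ hdenpos.le
          linarith
  linarith

theorem exp_17_4 : Real.exp (17 / 4) ≤ 80 := by
  have h1 : Real.exp (17 / 4) ^ 4 = Real.exp 1 ^ 17 := by
    rw [← Real.exp_nat_mul, ← Real.exp_nat_mul]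
    norm_num
  have h2 : Real.exp 1 ^ 17 ≤ (2.7182818286 : ℝ) ^ 17 :=
    pow_le_pow_left₀ (Real.exp_pos _).le Real.exp_one_lt_d9.le 17
  have h3 : (2.7182818286 : ℝ) ^ 17 ≤ 80 ^ 4 := by norm_num
  exact (pow_le_pow_iff_left₀ (n := 4) (Real.exp_pos _).le (by norm_num) (by norm_num)).mp
    (by rw [h1]; exact h2.trans h3)

theorem exp_13_4 : Real.exp (13 / 4) ≤ 26 := by
  have h1 : Real.exp (13 / 4) ^ 4 = Real.exp 1 ^ 13 := by
    rw [← Real.exp_nat_mul, ← Real.exp_nat_mul]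
    norm_num
  have h2 : Real.exp 1 ^ 13 ≤ (2.7182818286 : ℝ) ^ 13 :=
    pow_le_pow_left₀ (Real.exp_pos _).le Real.exp_one_lt_d9.le 13
  have h3 : (2.7182818286 : ℝ) ^ 13 ≤ 26 ^ 4 := by norm_num
  exact (pow_le_pow_iff_left₀ (n := 4) (Real.exp_pos _).le (by norm_num) (by norm_num)).mp
    (by rw [h1]; exact h2.trans h3)

theorem pi_sq_bound : 81 * Real.pi ^ 2 ≤ 800 := by
  have h := Real.pi_lt_d4
  have h0 := Real.pi_pos
  nlinarith

end Vale.Agent.P047
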