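import Mathlib
import Vale.Agent.P047.Numeric

namespace Vale.Agent.P047

open Finset Polynomial

variable {n : ℕ}

theorem exponent_le (k d : ℕ) (hk : 1 ≤ k) (hd : d ≤ 2 * k + 2) :
    (d : ℝ) * (2 * Real.sin (Real.pi / (2 * (2 * k + 1)))
      + 4 / 3 * Real.sin (Real.pi / (2 * (2 * k + 1))) ^ 2)
    ≤ Real.pi * (1 + 1 / (2 * k + 1))
      + Real.pi ^ 2 / 3 * (1 / (2 * k + 1) + (1 / (2 * k + 1)) ^ 2) := by
  obtain ⟨t0, t1, _⟩ := tau_facts k hk
  obtain ⟨τ, hτ⟩ : ∃ τ, τ = Real.sin (Real.pi / (2 * (2 * k + 1))) := ⟨_, rfl⟩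
  rw [← hτ] at t0 t1 ⊢
  have hm : (0 : ℝ) < 2 * k + 1 := by positivity
  have hd' : (d : ℝ) ≤ 2 * k + 1 + 1 := by
    have : (d : ℝ) ≤ ((2 * k + 2 : ℕ) : ℝ) := by exact_mod_cast hd
    push_cast at this
    linarith
  have h2 : τ ^ 2 ≤ (Real.pi / (2 * (2 * k + 1))) ^ 2 := pow_le_pow_left₀ t0.le t1 2
  have h3 : 2 * τ + 4 / 3 * τ ^ 2 ≤ 2 * (Real.pi / (2 * (2 * k + 1)))
      + 4 / 3 * (Real.pi / (2 * (2 * k + 1))) ^ 2 := by linarith
  have h4 : 0 ≤ 2 * τ + 4 / 3 * τ ^ 2 := by positivity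
  calc (d : ℝ) * (2 * τ + 4 / 3 * τ ^ 2)
      ≤ (2 * k + 1 + 1) * (2 * (Real.pi / (2 * (2 * k + 1)))
        + 4 / 3 * (Real.pi / (2 * (2 * k + 1))) ^ 2) :=
        mul_le_mul hd' h3 h4 (by positivity)
    _ = Real.pi * (1 + 1 / (2 * k + 1))
      + Real.pi ^ 2 / 3 * (1 / (2 * k + 1) + (1 / (2 * k + 1)) ^ 2) := by
        field_simp
        ring

theorem exponent_le_odd (k : ℕ) (hk : 1 ≤ k) :
    ((2 * k + 1 : ℕ) : ℝ) * (2 * Real.sin (Real.pi / (2 * (2 * k + 1)))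
      + 4 / 3 * Real.sin (Real.pi / (2 * (2 * k + 1))) ^ 2)
    ≤ Real.pi + Real.pi ^ 2 / 3 * (1 / (2 * k + 1)) := by
  obtain ⟨t0, t1, _⟩ := tau_facts k hk
  obtain ⟨τ, hτ⟩ : ∃ τ, τ = Real.sin (Real.pi / (2 * (2 * k + 1))) := ⟨_, rfl⟩
  rw [← hτ] at t0 t1 ⊢
  have hm : (0 : ℝ) < 2 * k + 1 := by positivity
  have h2 : τ ^ 2 ≤ (Real.pi / (2 * (2 * k + 1))) ^ 2 := pow_le_pow_left₀ t0.le t1 2
  have h3 : 2 * τ + 4 / 3 * τ ^ 2 ≤ 2 * (Real.pi / (2 * (2 * k + 1)))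
      + 4 / 3 * (Real.pi / (2 * (2 * k + 1))) ^ 2 := by linarith
  push_cast
  calc (2 * (k : ℝ) + 1) * (2 * τ + 4 / 3 * τ ^ 2)
      ≤ (2 * k + 1) * (2 * (Real.pi / (2 * (2 * k + 1)))
        + 4 / 3 * (Real.pi / (2 * (2 * k + 1))) ^ 2) :=
        mul_le_mul_of_nonneg_left h3 hm.le
    _ = Real.pi + Real.pi ^ 2 / 3 * (1 / (2 * k + 1)) := by
        field_simp
        ring

theorem pi_sq_lt : Real.pi ^ 2 < 9.87 := by
  have h := Real.pi_lt_d4
  have h0 := Real.pi_pos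
  nlinarith

/-- trivial consequence: the linear sum is at most the odd number `2k+1`. -/
theorem le_odd (f : (Fin n → Bool) → ℝ) (hf : ∀ x, f x = 1 ∨ f x = -1) (d k : ℕ)
    (hk : 1 ≤ k) (hd : d ≤ 2 * k + 2)
    (hdeg : ∀ S : Finset (Fin n), d < S.card → fhat f S = 0) :
    ∑ i, fhat f {i} ≤ 2 * k + 1 := by
  have h := bound_of_exponent f hf d k hk hd hdeg _ (le_refl _)
  refine h.trans ?_
  have : 0 ≤ 16 / ((1 + Real.exp (d * (2 * Real.sin (Real.pi / (2 * (2 * k + 1)))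
      + 4 / 3 * Real.sin (Real.pi / (2 * (2 * k + 1))) ^ 2))) * Real.pi ^ 2) := by positivity
  have hm : (0 : ℝ) < 2 * k + 1 := by positivity
  nlinarith

theorem le_of_K80 (f : (Fin n → Bool) → ℝ) (hf : ∀ x, f x = 1 ∨ f x = -1) (d k : ℕ)
    (hk : 1 ≤ k) (hd : d ≤ 2 * k + 2)
    (hdeg : ∀ S : Finset (Fin n), d < S.card → fhat f S = 0)
    (hE : (d : ℝ) * (2 * Real.sin (Real.pi / (2 * (2 * k + 1)))
      + 4 / 3 * Real.sin (Real.pi / (2 * (2 * k + 1))) ^ 2) ≤ 17 / 4) :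
    ∑ i, fhat f {i} ≤ 49 / 50 * (2 * k + 1) := by
  have h := bound_of_exponent f hf d k hk hd hdeg 80
    ((Real.exp_le_exp.mpr hE).trans exp_17_4)
  refine h.trans ?_
  have hp := pi_sq_bound
  have hpp : 0 < Real.pi ^ 2 := by positivity
  have : 1 / 50 ≤ 16 / ((1 + 80) * Real.pi ^ 2) := by
    rw [div_le_div_iff₀ (by norm_num) (by positivity)]
    linarith
  have hm : (0 : ℝ) < 2 * k + 1 := by positivity
  nlinarith

theorem le_of_K26 (f : (Fin n → Bool) → ℝ) (hf : ∀ x, f x = 1 ∨ f x = -1) (d k : ℕ)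
    (hk : 1 ≤ k) (hd : d ≤ 2 * k + 2)
    (hdeg : ∀ S : Finset (Fin n), d < S.card → fhat f S = 0)
    (hE : (d : ℝ) * (2 * Real.sin (Real.pi / (2 * (2 * k + 1)))
      + 4 / 3 * Real.sin (Real.pi / (2 * (2 * k + 1))) ^ 2) ≤ 13 / 4) :
    ∑ i, fhat f {i} ≤ 47 / 50 * (2 * k + 1) := by
  have h := bound_of_exponent f hf d k hk hd hdeg 26
    ((Real.exp_le_exp.mpr hE).trans exp_13_4)
  refine h.trans ?_
  have hp := pi_sq_bound
  have hpp : 0 < Real.pi ^ 2 := by positivity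
  have : 3 / 50 ≤ 16 / ((1 + 26) * Real.pi ^ 2) := by
    rw [div_le_div_iff₀ (by norm_num) (by positivity)]
    linarith
  have hm : (0 : ℝ) < 2 * k + 1 := by positivity
  nlinarith

/-- degree at most two -/
theorem le_one_of_deg_two (f : (Fin n → Bool) → ℝ) (hf : ∀ x, f x = 1 ∨ f x = -1)
    (hdeg : ∀ S : Finset (Fin n), 2 < S.card → fhat f S = 0) :
    ∑ i, fhat f {i} ≤ 1 := by
  have h1 := abs_eval_Qodd_le_one f hf 1 (by simp)
  have h2 : (Qodd f).eval 1 = ∑ i, fhat f {i} := by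
    unfold Qodd
    rw [eval_finsetSum, ← sum_singletons]
    apply Finset.sum_congr rfl
    intro R _
    by_cases hc : R.card = 1
    · simp [hc]
    · simp only [hc, if_false]
      split_ifs with ho
      · have : 2 < R.card := by
          obtain ⟨j, hj⟩ := ho
          omega
        rw [hdeg R this]
        simp
      · simp
  rw [h2] at h1
  exact (abs_le.mp h1).2

theorem main_general (f : (Fin n → Bool) → ℝ) (hf : ∀ x, f x = 1 ∨ f x = -1) (d : ℕ)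
    (hd2 : 2 ≤ d) (hdeg : ∀ S : Finset (Fin n), d < S.card → fhat f S = 0) :
    ∑ i, fhat f {i} ≤ 49 / 50 * d := by
  have hpi := Real.pi_lt_d4
  have hpi0 := Real.pi_pos
  have hpi2 := pi_sq_lt
  have hpi2' : 0 < Real.pi ^ 2 := by positivity
  rcases Nat.even_or_odd' d with ⟨j, hj | hj⟩
  · -- d = 2 j
    obtain ⟨k, rfl⟩ : ∃ k, j = k + 1 := ⟨j - 1, by omega⟩
    have hdk : d = 2 * k + 2 := by omega
    have hdr : (d : ℝ) = 2 * k + 2 := by rw [hdk]; push_cast; ring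
    by_cases hk0 : k = 0
    · subst hk0
      have := le_one_of_deg_two f hf (by simpa [hdk] using hdeg)
      rw [hdr]
      norm_num
      linarith
    · have hk : 1 ≤ k := by omega
      by_cases hk24 : k ≤ 24
      · have := le_odd f hf d k hk hdk.le hdeg
        have hk' : (k : ℝ) ≤ 24 := by exact_mod_cast hk24
        rw [hdr]
        linarith
      · have hk25 : (25 : ℝ) ≤ k := by exact_mod_cast (by omega : 25 ≤ k)
        have hE := exponent_le k d hk hdk.le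
        have hu : 1 / (2 * (k : ℝ) + 1) ≤ 1 / 51 := by
          apply div_le_div_of_nonneg_left (by norm_num) (by norm_num)
          linarith
        have hu0 : 0 < 1 / (2 * (k : ℝ) + 1) := by positivity
        obtain ⟨u, hu'⟩ : ∃ u, u = 1 / (2 * (k : ℝ) + 1) := ⟨_, rfl⟩
        rw [← hu'] at hE hu hu0
        have hb : Real.pi * (1 + u) + Real.pi ^ 2 / 3 * (u + u ^ 2) ≤ 17 / 4 := by
          have a1 : Real.pi * (1 + u) ≤ 3.1416 * (1 + 1 / 51) :=
            mul_le_mul hpi.le (by linarith) (by linarith) (by norm_num)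
          have a2 : u + u ^ 2 ≤ 1 / 51 + (1 / 51) ^ 2 := by nlinarith
          have a3 : Real.pi ^ 2 / 3 * (u + u ^ 2) ≤ 9.87 / 3 * (1 / 51 + (1 / 51) ^ 2) :=
            mul_le_mul (by linarith) a2 (by positivity) (by norm_num)
          norm_num at a1 a3 ⊢
          linarith
        have := le_of_K80 f hf d k hk hdk.le hdeg (hE.trans hb)
        rw [hdr]
        linarith
  · -- d = 2 j + 1
    have hk : 1 ≤ j := by omega
    have hdr : (d : ℝ) = 2 * j + 1 := by rw [hj]; push_cast; ring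
    have hE := exponent_le_odd j hk
    rw [← hj] at hE
    have hj1 : (1 : ℝ) ≤ j := by exact_mod_cast hk
    have hu : 1 / (2 * (j : ℝ) + 1) ≤ 1 / 3 := by
      apply div_le_div_of_nonneg_left (by norm_num) (by norm_num)
      linarith
    have hb : Real.pi + Real.pi ^ 2 / 3 * (1 / (2 * (j : ℝ) + 1)) ≤ 17 / 4 := by
      have a3 : Real.pi ^ 2 / 3 * (1 / (2 * (j : ℝ) + 1)) ≤ 9.87 / 3 * (1 / 3) :=
        mul_le_mul (by linarith) hu (by positivity) (by norm_num)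
      norm_num at a3 ⊢
      linarith
    have := le_of_K80 f hf d j hk (by omega) hdeg (hE.trans hb)
    rw [hdr]
    linarith

theorem main_large (f : (Fin n → Bool) → ℝ) (hf : ∀ x, f x = 1 ∨ f x = -1) (d : ℕ)
    (hd100 : 100 ≤ d) (hdeg : ∀ S : Finset (Fin n), d < S.card → fhat f S = 0) :
    ∑ i, fhat f {i} ≤ 47 / 50 * d := by
  have hpi := Real.pi_lt_d4
  have hpi0 := Real.pi_pos
  have hpi2 := pi_sq_lt
  have hpi2' : 0 < Real.pi ^ 2 := by positivity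
  obtain ⟨k, hk1, hk2⟩ : ∃ k, 2 * k + 1 ≤ d ∧ d ≤ 2 * k + 2 := ⟨(d - 1) / 2, by omega, by omega⟩
  have hk : 1 ≤ k := by omega
  have hk49 : (49 : ℝ) ≤ k := by exact_mod_cast (by omega : 49 ≤ k)
  have hdr : (2 * (k : ℝ) + 1) ≤ d := by exact_mod_cast hk1
  have hE := exponent_le k d hk hk2
  have hu : 1 / (2 * (k : ℝ) + 1) ≤ 1 / 99 := by
    apply div_le_div_of_nonneg_left (by norm_num) (by norm_num)
    linarith
  have hu0 : 0 < 1 / (2 * (k : ℝ) + 1) := by positivity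
  obtain ⟨u, hu'⟩ : ∃ u, u = 1 / (2 * (k : ℝ) + 1) := ⟨_, rfl⟩
  rw [← hu'] at hE hu hu0
  have hb : Real.pi * (1 + u) + Real.pi ^ 2 / 3 * (u + u ^ 2) ≤ 13 / 4 := by
    have a1 : Real.pi * (1 + u) ≤ 3.1416 * (1 + 1 / 99) :=
      mul_le_mul hpi.le (by linarith) (by linarith) (by norm_num)
    have a2 : u + u ^ 2 ≤ 1 / 99 + (1 / 99) ^ 2 := by nlinarith
    have a3 : Real.pi ^ 2 / 3 * (u + u ^ 2) ≤ 9.87 / 3 * (1 / 99 + (1 / 99) ^ 2) :=
      mul_le_mul (by linarith) a2 (by positivity) (by norm_num)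
    norm_num at a1 a3 ⊢
    linarith
  have := le_of_K26 f hf d k hk hk2 hdeg (hE.trans hb)
  linarith

end Vale.Agent.P047
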