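import Mathlib
import Vale.Agent.P047.Deg4

namespace Vale.Agent.P047

open Finset

variable {n : ℕ}

/-- add one queried variable (at position `0`) to an offset family -/
def stepF (G : ℤ → (Fin n → Bool) → ℝ) : ℤ → (Fin (n + 1) → Bool) → ℝ :=
  fun s x => G (s + sgZ (x 0)) (fun j => x j.succ)

/-- add one dummy variable (at position `0`) -/
def dumF (G : ℤ → (Fin n → Bool) → ℝ) : ℤ → (Fin (n + 1) → Bool) → ℝ :=
  fun s x => G s (fun j => x j.succ)

theorem res_stepF (G : ℤ → (Fin n → Bool) → ℝ) (s : ℤ) (b : Bool) :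
    res (stepF G s) 0 b = G (s + sgZ b) := by
  funext y
  simp [res, stepF]

theorem res_dumF (G : ℤ → (Fin n → Bool) → ℝ) (s : ℤ) (b : Bool) :
    res (dumF G s) 0 b = G s := by
  funext y
  simp [res, dumF]

/-- the offset functional `s E f + L(f)` -/
noncomputable def opsi (f : (Fin n → Bool) → ℝ) (s : ℤ) : ℝ := (s : ℝ) * fhat f ∅ + lev f

theorem opsi_stepF (G : ℤ → (Fin n → Bool) → ℝ) (s : ℤ) :
    opsi (stepF G s) s = (opsi (G (s + 1)) (s + 1) + opsi (G (s - 1)) (s - 1)) / 2 := by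
  unfold opsi
  rw [lev_split _ 0, fhat_singleton_eq _ 0, fhat_empty_eq _ 0, res_stepF, res_stepF]
  have h1 : s + sgZ true = s + 1 := by simp [sgZ]
  have h2 : s + sgZ false = s - 1 := by simp [sgZ]; ring
  rw [h1, h2]
  push_cast
  ring

theorem opsi_dumF (G : ℤ → (Fin n → Bool) → ℝ) (s : ℤ) :
    opsi (dumF G s) s = opsi (G s) s := by
  unfold opsi
  rw [lev_split _ 0, fhat_singleton_eq _ 0, fhat_empty_eq _ 0, res_dumF, res_dumF]
  ring

theorem exists_up (i : Fin (n + 1)) (T : Finset (Fin (n + 1))) (hi : i ∉ T) :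
    ∃ S : Finset (Fin n), T = up i S := by
  refine ⟨T.preimage i.succAbove (Fin.succAbove_right_injective.injOn), ?_⟩
  ext j
  unfold up
  rw [Finset.mem_map]
  constructor
  · intro hj
    have hne : j ≠ i := fun h => hi (h ▸ hj)
    obtain ⟨k, hk⟩ := Fin.exists_succAbove_eq hne
    refine ⟨k, ?_, hk⟩
    rw [Finset.mem_preimage, hk]
    exact hj
  · rintro ⟨k, hk, rfl⟩
    rw [Finset.mem_preimage] at hk
    exact hk

theorem deg_of_res (f : (Fin (n + 1) → Bool) → ℝ) (i : Fin (n + 1)) (k : ℕ)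
    (h1 : ∀ S : Finset (Fin n), k < S.card → fhat (res f i true) S = 0)
    (h2 : ∀ S : Finset (Fin n), k < S.card → fhat (res f i false) S = 0) :
    ∀ T : Finset (Fin (n + 1)), k + 1 < T.card → fhat f T = 0 := by
  intro T hT
  by_cases hi : i ∈ T
  · obtain ⟨S, hS⟩ := exists_up i (T.erase i) (Finset.notMem_erase i T)
    have hT' : T = insert i (up i S) := by rw [← hS, Finset.insert_erase hi]
    have hc : k < S.card := by
      have : T.card = S.card + 1 := by
        rw [hT', Finset.card_insert_of_notMem (not_mem_up i S), card_up]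
      omega
    rw [hT', fhat_insert_up, h1 S hc, h2 S hc]
    simp
  · obtain ⟨S, hS⟩ := exists_up i T hi
    have hc : k < S.card := by
      have : T.card = S.card := by rw [hS, card_up]
      omega
    rw [hS, fhat_up, h1 S hc, h2 S hc]
    simp

theorem deg_of_res_eq (f : (Fin (n + 1) → Bool) → ℝ) (i : Fin (n + 1)) (k : ℕ)
    (g : (Fin n → Bool) → ℝ) (e1 : res f i true = g) (e2 : res f i false = g)
    (h1 : ∀ S : Finset (Fin n), k < S.card → fhat g S = 0) :
    ∀ T : Finset (Fin (n + 1)), k < T.card → fhat f T = 0 := by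
  intro T hT
  by_cases hi : i ∈ T
  · obtain ⟨S, hS⟩ := exists_up i (T.erase i) (Finset.notMem_erase i T)
    have hT' : T = insert i (up i S) := by rw [← hS, Finset.insert_erase hi]
    rw [hT', fhat_insert_up, e1, e2]
    simp
  · obtain ⟨S, hS⟩ := exists_up i T hi
    have hc : k < S.card := by
      have : T.card = S.card := by rw [hS, card_up]
      omega
    rw [hS, fhat_up, e1, e2, h1 S hc]
    simp

/-- `E |s + X_1 + ... + X_j|` -/
noncomputable def bb (j : ℕ) (s : ℤ) : ℝ :=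
  (∑ y : Fin j → Bool, |(s : ℝ) + ∑ i, sg (y i)|) / 2 ^ j

theorem bb_zero (s : ℤ) : bb 0 s = |(s : ℝ)| := by
  simp [bb]

theorem bb_succ (j : ℕ) (s : ℤ) : bb (j + 1) s = (bb j (s + 1) + bb j (s - 1)) / 2 := by
  unfold bb
  rw [sum_split _ 0]
  have h1 : ∀ (b : Bool) (y : Fin j → Bool),
      ∑ i, sg (((0 : Fin (j + 1)).insertNth b y : Fin (j + 1) → Bool) i) = sg b + ∑ i, sg (y i) := by
    intro b y
    rw [Fin.sum_univ_succ]
    simp
  simp_rw [h1]
  have e1 : ∀ y : Fin j → Bool, |(s : ℝ) + (sg true + ∑ i, sg (y i))|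
      = |((s + 1 : ℤ) : ℝ) + ∑ i, sg (y i)| := by
    intro y
    congr 1
    simp [sg]
    ring
  have e2 : ∀ y : Fin j → Bool, |(s : ℝ) + (sg false + ∑ i, sg (y i))|
      = |((s - 1 : ℤ) : ℝ) + ∑ i, sg (y i)| := by
    intro y
    congr 1
    simp [sg]
    ring
  simp_rw [e1, e2]
  rw [pow_succ]
  field_simp

/-- an offset family of Boolean functions on `n` variables of degree at most `D` with
`phi s ≤ s E (G s) + L(G s)`. -/
def Fam (n D : ℕ) (phi : ℤ → ℝ) : Prop :=
  ∃ G : ℤ → (Fin n → Bool) → ℝ, (∀ s x, G s x = 1 ∨ G s x = -1) ∧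
    (∀ s (S : Finset (Fin n)), D < S.card → fhat (G s) S = 0) ∧ ∀ s, phi s ≤ opsi (G s) s

theorem Fam.step {n D : ℕ} {phi : ℤ → ℝ} (h : Fam n D phi) :
    Fam (n + 1) (D + 1) (fun s => (phi (s + 1) + phi (s - 1)) / 2) := by
  obtain ⟨G, hb, hd, hp⟩ := h
  refine ⟨stepF G, fun s x => hb _ _, fun s => ?_, fun s => ?_⟩
  · apply deg_of_res _ 0 D
    · rw [res_stepF]; exact hd _
    · rw [res_stepF]; exact hd _
  · rw [opsi_stepF]
    have := hp (s + 1)
    have := hp (s - 1)
    linarith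

theorem Fam.dummy {n D : ℕ} {phi : ℤ → ℝ} (h : Fam n D phi) : Fam (n + 1) D phi := by
  obtain ⟨G, hb, hd, hp⟩ := h
  refine ⟨dumF G, fun s x => hb _ _, fun s => ?_, fun s => ?_⟩
  · exact deg_of_res_eq _ 0 D (G s) (res_dumF G s true) (res_dumF G s false) (hd s)
  · rw [opsi_dumF]
    exact hp s

theorem Fam.mono {n D : ℕ} {phi phi' : ℤ → ℝ} (h : Fam n D phi) (hle : ∀ s, phi' s ≤ phi s) :
    Fam n D phi' := by
  obtain ⟨G, hb, hd, hp⟩ := h
  exact ⟨G, hb, hd, fun s => le_trans (hle s) (hp s)⟩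

theorem Fam.update {n D : ℕ} {phi : ℤ → ℝ} (h : Fam n D phi) (f : (Fin n → Bool) → ℝ)
    (hf : ∀ x, f x = 1 ∨ f x = -1) (hdeg : ∀ S : Finset (Fin n), D < S.card → fhat f S = 0) :
    Fam n D (fun s => if s = 0 then lev f else phi s) := by
  obtain ⟨G, hb, hd, hp⟩ := h
  refine ⟨fun s => if s = 0 then f else G s, fun s x => ?_, fun s => ?_, fun s => ?_⟩
  · by_cases hs : s = 0
    · simp only [hs, if_true]; exact hf x
    · simp only [hs, if_false]; exact hb s x
  · by_cases hs : s = 0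
    · simp only [hs, if_true]; exact hdeg
    · simp only [hs, if_false]; exact hd s
  · by_cases hs : s = 0
    · subst hs
      simp [opsi]
    · simp only [hs, if_false]; exact hp s

theorem fam_zero : Fam 0 0 (bb 0) := by
  refine ⟨fun s _ => if 0 ≤ s then 1 else -1, fun s x => ?_, fun s S hS => ?_, fun s => ?_⟩
  · by_cases h : 0 ≤ s <;> simp [h]
  · exfalso
    have : S = ∅ := Finset.eq_empty_of_isEmpty S
    rw [this] at hS
    simp at hS
  · rw [bb_zero]
    unfold opsi lev fhat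
    by_cases h : 0 ≤ s
    · have h' : (0 : ℝ) ≤ s := by exact_mod_cast h
      simp [h, abs_of_nonneg h']
    · have h' : (s : ℝ) < 0 := by
        push Not at h
        exact_mod_cast h
      simp [h, abs_of_neg h']

theorem fam_const : ∀ m : ℕ, Fam m 0 (bb 0)
  | 0 => fam_zero
  | m + 1 => (fam_const m).dummy

theorem fam_maj (m : ℕ) : ∀ D : ℕ, Fam (m + D) D (bb D)
  | 0 => fam_const m
  | D + 1 => by
    have h := (fam_maj m D).step
    exact h.mono (fun s => le_of_eq (bb_succ D s))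

/-- the spreading of a unit gain at offset `0` -/
noncomputable def gq : ℕ → ℤ → ℝ
  | 0, s => if s = 0 then 1 else 0
  | j + 1, s => (gq j (s + 1) + gq j (s - 1)) / 2

theorem gq_nonneg : ∀ (j : ℕ) (s : ℤ), 0 ≤ gq j s
  | 0, s => by
    unfold gq
    split_ifs <;> norm_num
  | j + 1, s => by
    unfold gq
    have := gq_nonneg j (s + 1)
    have := gq_nonneg j (s - 1)
    linarith

theorem gq_ge : ∀ (j i : ℕ), (Nat.choose j i : ℝ) / 2 ^ j ≤ gq j (2 * (i : ℤ) - j)
  | 0, i => by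
    cases i with
    | zero => simp [gq]
    | succ i =>
      have : Nat.choose 0 (i + 1) = 0 := by simp
      rw [this]
      simp only [Nat.cast_zero, zero_div]
      exact gq_nonneg _ _
  | j + 1, i => by
    unfold gq
    cases i with
    | zero =>
      have h1 := gq_ge j 0
      have h2 := gq_nonneg j (2 * ((0 : ℕ) : ℤ) - ((j + 1 : ℕ) : ℤ) - 1)
      have e : (2 * ((0 : ℕ) : ℤ) - ((j + 1 : ℕ) : ℤ) + 1) = 2 * ((0 : ℕ) : ℤ) - (j : ℤ) := by
        push_cast; ring
      rw [e]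
      simp only [Nat.choose_zero_right, Nat.cast_one] at h1 ⊢
      rw [pow_succ]
      have : (1 : ℝ) / (2 ^ j * 2) = (1 / 2 ^ j) / 2 := by field_simp
      rw [this]
      have key : ∀ (A B c : ℝ), c ≤ A → 0 ≤ B → c / 2 ≤ (A + B) / 2 := by
        intro A B c hA hB
        linarith
      exact key _ _ _ h1 (gq_nonneg _ _)
    | succ i =>
      have h1 := gq_ge j (i + 1)
      have h2 := gq_ge j i
      have e1 : (2 * ((i + 1 : ℕ) : ℤ) - ((j + 1 : ℕ) : ℤ) + 1) = 2 * ((i + 1 : ℕ) : ℤ) - (j : ℤ) := by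
        push_cast; ring
      have e2 : (2 * ((i + 1 : ℕ) : ℤ) - ((j + 1 : ℕ) : ℤ) - 1) = 2 * ((i : ℕ) : ℤ) - (j : ℤ) := by
        push_cast; ring
      rw [e1, e2, Nat.choose_succ_succ, pow_succ]
      push_cast
      have : ((Nat.choose j i : ℝ) + (Nat.choose j (i + 1) : ℝ)) / (2 ^ j * 2)
          = ((Nat.choose j i : ℝ) / 2 ^ j + (Nat.choose j (i + 1) : ℝ) / 2 ^ j) / 2 := by
        field_simp
      rw [this]
      push_cast at h1 h2
      linarith

theorem fam_boost (m D : ℕ) (f : (Fin (m + D) → Bool) → ℝ) (hf : ∀ x, f x = 1 ∨ f x = -1)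
    (hdeg : ∀ S : Finset (Fin (m + D)), D < S.card → fhat f S = 0) (c : ℝ)
    (hc : bb D 0 + c ≤ lev f) :
    ∀ j : ℕ, Fam (m + D + j) (D + j) (fun s => bb (D + j) s + c * gq j s)
  | 0 => by
    have h := (fam_maj m D).update f hf hdeg
    apply h.mono
    intro s
    by_cases hs : s = 0
    · subst hs
      simp [gq]
      exact hc
    · simp [gq, hs]
  | j + 1 => by
    have h := (fam_boost m D f hf hdeg c hc j).step
    apply h.mono
    intro s
    have e : bb (D + (j + 1)) s = (bb (D + j) (s + 1) + bb (D + j) (s - 1)) / 2 := bb_succ (D + j) s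
    rw [e]
    have e2 : gq (j + 1) s = (gq j (s + 1) + gq j (s - 1)) / 2 := by
      conv_lhs => unfold gq
    rw [e2]
    apply le_of_eq
    ring

/-- the main consequence: from one function beating `B_D` by `c`, functions beating `B_{D+2k}` -/
theorem exceed (m D : ℕ) (f : (Fin (m + D) → Bool) → ℝ) (hf : ∀ x, f x = 1 ∨ f x = -1)
    (hdeg : ∀ S : Finset (Fin (m + D)), D < S.card → fhat f S = 0) (c : ℝ) (hc0 : 0 ≤ c)
    (hc : bb D 0 + c ≤ lev f) (k : ℕ) :
    ∃ g : (Fin (m + D + 2 * k) → Bool) → ℝ, (∀ x, g x = 1 ∨ g x = -1) ∧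
      (∀ S : Finset (Fin (m + D + 2 * k)), D + 2 * k < S.card → fhat g S = 0) ∧
      bb (D + 2 * k) 0 + c * ((Nat.choose (2 * k) k : ℝ) / 2 ^ (2 * k)) ≤ lev g := by
  obtain ⟨G, hb, hd, hp⟩ := fam_boost m D f hf hdeg c hc (2 * k)
  refine ⟨G 0, hb 0, hd 0, ?_⟩
  have h1 := hp 0
  have h2 := gq_ge (2 * k) k
  have e : (2 * (k : ℤ) - ((2 * k : ℕ) : ℤ)) = 0 := by push_cast; ring
  rw [e] at h2
  have h3 : opsi (G 0) 0 = lev (G 0) := by simp [opsi]
  rw [h3] at h1
  have h4 : c * ((Nat.choose (2 * k) k : ℝ) / 2 ^ (2 * k)) ≤ c * gq (2 * k) 0 :=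
    mul_le_mul_of_nonneg_left h2 hc0
  linarith

end Vale.Agent.P047
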