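import Mathlib
import Vale.Agent.P047.Unamb

namespace Vale.Agent.P047

open Finset

variable {n : ℕ}

theorem ind_of_mem {P Q : Finset (Fin n)} {x : Fin n → Bool}
    (h : (∀ i ∈ P, x i = true) ∧ (∀ i ∈ Q, x i = false)) : ind P Q x = 1 := by
  unfold ind
  rw [if_pos h]

theorem ind_of_not_mem {P Q : Finset (Fin n)} {x : Fin n → Bool}
    (h : ¬((∀ i ∈ P, x i = true) ∧ (∀ i ∈ Q, x i = false))) : ind P Q x = 0 := by
  unfold ind
  rw [if_neg h]

theorem sum_mul_ind_of_unique {m : ℕ} (c : Fin m → ℝ) (P Q : Fin m → Finset (Fin n))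
    (x : Fin n → Bool) (j0 : Fin m)
    (h0 : (∀ i ∈ P j0, x i = true) ∧ (∀ i ∈ Q j0, x i = false))
    (huniq : ∀ k, ((∀ i ∈ P k, x i = true) ∧ (∀ i ∈ Q k, x i = false)) → k = j0) :
    ∑ j, c j * ind (P j) (Q j) x = c j0 := by
  rw [Finset.sum_eq_single j0]
  · rw [ind_of_mem h0, mul_one]
  · intro k _ hk
    rw [ind_of_not_mem (fun h => hk (huniq k h)), mul_zero]
  · simp

theorem sum_ind_of_none {m : ℕ} (P Q : Fin m → Finset (Fin n)) (x : Fin n → Bool)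
    (h : ¬∃ j, (∀ i ∈ P j, x i = true) ∧ (∀ i ∈ Q j, x i = false)) :
    ∑ j, ind (P j) (Q j) x = 0 := by
  apply Finset.sum_eq_zero
  intro j _
  exact ind_of_not_mem (fun hj => h ⟨j, hj⟩)

/-- Boolean form of the unambiguous DNF theorem -/
theorem unamb_bool {m : ℕ} (d : ℕ) (hd : 1 ≤ d) (P Q : Fin m → Finset (Fin n))
    (f : (Fin n → Bool) → ℝ)
    (hPQ : ∀ j, Disjoint (P j) (Q j)) (hw : ∀ j, (P j).card + (Q j).card ≤ d)
    (hf : ∀ x, f x = 1 ∨ f x = -1)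
    (hiff : ∀ x, f x = -1 ↔ ∃ j, (∀ i ∈ P j, x i = true) ∧ (∀ i ∈ Q j, x i = false))
    (huniq : ∀ (x : Fin n → Bool) (j k : Fin m), ((∀ i ∈ P j, x i = true) ∧ (∀ i ∈ Q j, x i = false)) →
      ((∀ i ∈ P k, x i = true) ∧ (∀ i ∈ Q k, x i = false)) → j = k) :
    (∀ S : Finset (Fin n), d < S.card → fhat f S = 0) ∧
      |∑ i, fhat f {i}| ≤ 2 * Real.sqrt ((d + 1) / Real.exp 1) := by
  have hsum : ∀ x, ∑ j, ind (P j) (Q j) x = (1 - f x) / 2 := by
    intro x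
    by_cases hx : ∃ j, (∀ i ∈ P j, x i = true) ∧ (∀ i ∈ Q j, x i = false)
    · obtain ⟨j0, h0⟩ := hx
      have h1 := sum_mul_ind_of_unique (fun _ => (1 : ℝ)) P Q x j0 h0
        (fun k hk => huniq x k j0 hk h0)
      simp only [one_mul] at h1
      rw [h1, (hiff x).mpr ⟨j0, h0⟩]
      norm_num
    · rw [sum_ind_of_none P Q x hx]
      have : f x = 1 := by
        rcases hf x with h | h
        · exact h
        · exact absurd ((hiff x).mp h) hx
      rw [this]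
      norm_num
  have hpack : ∀ x, ∑ j, ind (P j) (Q j) x ≤ 1 := by
    intro x
    rw [hsum x]
    rcases hf x with h | h <;> rw [h] <;> norm_num
  have hf1 : ∀ x, f x = 1 - 2 * ∑ j, ind (P j) (Q j) x := by
    intro x
    rw [hsum x]
    ring
  have hf2 : ∀ x, f x = 1 + ∑ j, (-2 : ℝ) * ind (P j) (Q j) x := by
    intro x
    rw [hf1 x, ← Finset.mul_sum]
    ring
  exact ⟨fun S hS => deg_unamb d 1 (fun _ => (-2 : ℝ)) P Q hPQ hw f hf2 S hS,
    lev_unamb d hd P Q hPQ hw hpack f hf1⟩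

theorem partition_mass {m : ℕ} (P Q : Fin m → Finset (Fin n))
    (hPQ : ∀ j, Disjoint (P j) (Q j)) (hpart : ∀ x, ∑ j, ind (P j) (Q j) x = 1) :
    ∑ j, (1 / 2 : ℝ) ^ ((P j).card + (Q j).card) = 1 := by
  have hone : ∀ x : Fin n → Bool, (fun _ => (1 : ℝ)) x = 0 + ∑ j, (1 : ℝ) * ind (P j) (Q j) x := by
    intro x
    simp [hpart x]
  have hone' : ∀ x : Fin n → Bool, (fun _ => (1 : ℝ)) x
      = 1 + ∑ j : Fin 0, (0 : ℝ) * ind ((fun _ => ∅ : Fin 0 → Finset (Fin n)) j)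
          ((fun _ => ∅ : Fin 0 → Finset (Fin n)) j) x := by
    intro x
    simp
  have e1 := fhat_affine 0 (fun _ => (1 : ℝ)) P Q hPQ (fun _ => (1 : ℝ)) hone ∅
  have e2 := fhat_affine 1 (fun _ : Fin 0 => (0 : ℝ)) (fun _ => ∅) (fun _ => ∅)
    (fun j => j.elim0) (fun _ => (1 : ℝ)) hone' ∅
  rw [e1] at e2
  simp only [zero_mul, zero_add, one_mul, Finset.univ_eq_empty, Finset.sum_empty, add_zero,
    Finset.prod_empty, mul_one, if_true] at e2
  exact e2

/-- Boolean form of the subcube partition theorem -/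
theorem partition_bool {m : ℕ} (P Q : Fin m → Finset (Fin n)) (c : Fin m → ℝ)
    (f : (Fin n → Bool) → ℝ)
    (hPQ : ∀ j, Disjoint (P j) (Q j)) (hc : ∀ j, c j = 1 ∨ c j = -1)
    (hpart : ∀ x : Fin n → Bool, ∃! j, (∀ i ∈ P j, x i = true) ∧ (∀ i ∈ Q j, x i = false))
    (hconst : ∀ (x : Fin n → Bool) (j : Fin m), ((∀ i ∈ P j, x i = true) ∧ (∀ i ∈ Q j, x i = false)) → f x = c j) :
    (∑ i, fhat f {i}) ^ 2
        ≤ ∑ j, (((P j).card : ℝ) + (Q j).card) / 2 ^ ((P j).card + (Q j).card) ∧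
      ∀ d : ℕ, (∀ j, (P j).card + (Q j).card ≤ d) → (∑ i, fhat f {i}) ^ 2 ≤ d := by
  have hp1 : ∀ x, ∑ j, ind (P j) (Q j) x = 1 := by
    intro x
    obtain ⟨j0, h0, hu⟩ := hpart x
    have h1 := sum_mul_ind_of_unique (fun _ => (1 : ℝ)) P Q x j0 h0 (fun k hk => hu k hk)
    simpa using h1
  have hf : ∀ x, f x = ∑ j, c j * ind (P j) (Q j) x := by
    intro x
    obtain ⟨j0, h0, hu⟩ := hpart x
    rw [sum_mul_ind_of_unique c P Q x j0 h0 (fun k hk => hu k hk)]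
    exact hconst x j0 h0
  have hcc : ∀ j, c j * c j = 1 := by
    intro j
    rcases hc j with h | h <;> rw [h] <;> norm_num
  have hmain := lev_partition c hcc P Q hPQ hp1 f hf
  have hrew : ∑ j, (1 / 2 : ℝ) ^ ((P j).card + (Q j).card) * (((P j).card : ℝ) + (Q j).card)
      = ∑ j, (((P j).card : ℝ) + (Q j).card) / 2 ^ ((P j).card + (Q j).card) := by
    apply Finset.sum_congr rfl
    intro j _
    rw [one_div, inv_pow]
    field_simp
  refine ⟨hrew ▸ hmain, fun d hd => hmain.trans ?_⟩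
  calc ∑ j, (1 / 2 : ℝ) ^ ((P j).card + (Q j).card) * (((P j).card : ℝ) + (Q j).card)
      ≤ ∑ j, (1 / 2 : ℝ) ^ ((P j).card + (Q j).card) * d := by
        apply Finset.sum_le_sum
        intro j _
        apply mul_le_mul_of_nonneg_left _ (by positivity)
        exact_mod_cast hd j
    _ = d := by rw [← Finset.sum_mul, partition_mass P Q hPQ hp1, one_mul]

end Vale.Agent.P047
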