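import Mathlib
import Vale.Agent.P047.Offset
import Vale.Agent.P047.UnambBool

namespace Vale.Agent.P047

open Finset

/-- plus-parts of nineteen pairwise disjoint subcubes of codimension five in `{-1,1}^9` -/
def P9 : Fin 19 → Finset (Fin 9) :=
  ![∅, {0}, {1}, {2}, {4}, {1, 7}, {1, 5}, {3, 7}, {3, 8}, {2, 8}, {0, 8}, {2, 5}, {2, 6},
    {3, 5}, {4, 5}, {4, 8}, {2, 7}, {1, 8}, {3, 6}]

/-- minus-parts -/
def Q9 : Fin 19 → Finset (Fin 9) :=
  ![{0, 1, 2, 3, 4}, {1, 2, 4, 8}, {2, 5, 7, 8}, {5, 6, 7, 8}, {1, 2, 5, 8}, {3, 5, 8}, {3, 4, 8},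
    {0, 4, 6}, {5, 6, 7}, {3, 5, 6}, {1, 2, 3}, {1, 3, 7}, {3, 5, 7}, {0, 6, 7}, {2, 3, 8},
    {0, 2, 3}, {1, 3, 8}, {2, 3, 4}, {0, 1, 4}]

theorem pq9_disj : ∀ j, Disjoint (P9 j) (Q9 j) := by decide

theorem pq9_card : ∀ j, (P9 j).card + (Q9 j).card = 5 := by decide

theorem pq9_conf : ∀ j k, j ≠ k →
    (∃ i, i ∈ P9 j ∧ i ∈ Q9 k) ∨ (∃ i, i ∈ Q9 j ∧ i ∈ P9 k) := by decide +kernel

theorem pq9_sum : ∑ j, (((Q9 j).card : ℤ) - ((P9 j).card : ℤ)) = 31 := by decide +kernel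

/-- the function that is `-1` exactly on the union of the nineteen subcubes -/
noncomputable def f9 (x : Fin 9 → Bool) : ℝ := 1 + ∑ j, (-2 : ℝ) * ind (P9 j) (Q9 j) x

theorem f9_bool (x : Fin 9 → Bool) : f9 x = 1 ∨ f9 x = -1 := by
  unfold f9
  by_cases hx : ∃ j, (∀ i ∈ P9 j, x i = true) ∧ (∀ i ∈ Q9 j, x i = false)
  · obtain ⟨j0, h0⟩ := hx
    right
    rw [sum_mul_ind_of_unique (fun _ => (-2 : ℝ)) P9 Q9 x j0 h0]
    · norm_num
    · intro k hk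
      by_contra hne
      rcases pq9_conf k j0 hne with ⟨i, hi1, hi2⟩ | ⟨i, hi1, hi2⟩
      · have a := hk.1 i hi1
        have b := h0.2 i hi2
        rw [a] at b
        exact Bool.noConfusion b
      · have a := hk.2 i hi1
        have b := h0.1 i hi2
        rw [a] at b
        exact Bool.noConfusion b
  · left
    rw [← Finset.mul_sum, sum_ind_of_none P9 Q9 x hx]
    norm_num

theorem f9_deg (S : Finset (Fin 9)) (hS : 5 < S.card) : fhat f9 S = 0 :=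
  deg_unamb 5 1 (fun _ => (-2 : ℝ)) P9 Q9 pq9_disj (fun j => le_of_eq (pq9_card j)) f9
    (fun _ => rfl) S hS

theorem f9_lev : lev f9 = 31 / 16 := by
  unfold lev
  rw [lev_affine 1 (fun _ => (-2 : ℝ)) P9 Q9 pq9_disj f9 (fun _ => rfl)]
  simp_rw [pq9_card]
  have h : ∀ j : Fin 19, (-2 : ℝ) * ((1 / 2) ^ 5 * (((P9 j).card : ℝ) - (Q9 j).card))
      = (1 / 16) * (((((Q9 j).card : ℤ) - ((P9 j).card : ℤ) : ℤ)) : ℝ) := by
    intro j
    push_cast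
    ring
  simp_rw [h]
  rw [← Finset.mul_sum, ← Int.cast_sum, pq9_sum]
  norm_num

theorem bb_four : bb 4 0 = 3 / 2 := by
  norm_num [bb_succ, bb_zero]

theorem bb_five : bb 5 0 = 15 / 8 := by
  norm_num [bb_succ, bb_zero]

end Vale.Agent.P047
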