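import Mathlib
import Vale.Agent.P047.UnambBool

namespace Vale.Agent.P047

open Finset Polynomial

variable {n : ℕ}

/-- the linear functional `X^R ↦ |2R - d|` -/
noncomputable def Lam (d : ℕ) (p : ℝ[X]) : ℝ :=
  ∑ R ∈ Finset.range (d + 1), p.coeff R * |2 * (R : ℝ) - d|

theorem Lam_sum {m : ℕ} (d : ℕ) (p : Fin m → ℝ[X]) :
    Lam d (∑ j, p j) = ∑ j, Lam d (p j) := by
  unfold Lam
  simp_rw [Polynomial.finsetSum_coeff, Finset.sum_mul]
  rw [Finset.sum_comm]

theorem Lam_ge (d : ℕ) (p : ℝ[X]) (hdeg : p.natDegree ≤ d) (hnn : ∀ R, 0 ≤ p.coeff R) :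
    |2 * (derivative p).eval 1 - d * p.eval 1| ≤ Lam d p := by
  have h1 : p.eval 1 = ∑ R ∈ Finset.range (d + 1), p.coeff R := by
    rw [Polynomial.eval_eq_sum_range' (Nat.lt_succ_of_le hdeg)]
    simp
  have h2 : (derivative p).eval 1 = ∑ R ∈ Finset.range (d + 1), p.coeff R * R := by
    rw [Polynomial.derivative_eval, Polynomial.sum_over_range' p (by simp) (d + 1)
      (Nat.lt_succ_of_le hdeg)]
    simp
  have h3 : 2 * (derivative p).eval 1 - d * p.eval 1
      = ∑ R ∈ Finset.range (d + 1), p.coeff R * (2 * (R : ℝ) - d) := by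
    rw [h1, h2, Finset.mul_sum, Finset.mul_sum, ← Finset.sum_sub_distrib]
    apply Finset.sum_congr rfl
    intro R _
    ring
  rw [h3]
  refine (Finset.abs_sum_le_sum_abs _ _).trans (le_of_eq ?_)
  unfold Lam
  apply Finset.sum_congr rfl
  intro R _
  rw [abs_mul, abs_of_nonneg (hnn R)]

theorem Lam_binom (d : ℕ) :
    Lam d ((X + 1) ^ d) = ∑ R ∈ Finset.range (d + 1), (d.choose R : ℝ) * |2 * (R : ℝ) - d| := by
  unfold Lam
  apply Finset.sum_congr rfl
  intro R _
  rw [Polynomial.coeff_X_add_one_pow]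

theorem Lam_term (d a b : ℕ) (hab : a + b ≤ d) :
    (2 : ℝ) ^ (d - (a + b)) * |(a : ℝ) - b| ≤ Lam d (X ^ a * (X + 1) ^ (d - (a + b))) := by
  set m := d - (a + b) with hm
  have hmd : (m : ℝ) = (d : ℝ) - ((a : ℝ) + b) := by
    rw [hm, Nat.cast_sub hab]
    push_cast
    ring
  have hdeg : (X ^ a * (X + 1) ^ m : ℝ[X]).natDegree ≤ d := by
    refine (Polynomial.natDegree_mul_le).trans ?_
    have h1 : (X ^ a : ℝ[X]).natDegree = a := Polynomial.natDegree_X_pow a
    have h2 : ((X + 1) ^ m : ℝ[X]).natDegree ≤ m := by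
      refine (Polynomial.natDegree_pow_le).trans ?_
      have : (X + 1 : ℝ[X]).natDegree = 1 := by
        have := Polynomial.natDegree_X_add_C (1 : ℝ)
        simpa using this
      rw [this, mul_one]
    omega
  have hnn : ∀ R, 0 ≤ (X ^ a * (X + 1) ^ m : ℝ[X]).coeff R := by
    intro R
    rw [Polynomial.coeff_X_pow_mul']
    split_ifs
    · rw [Polynomial.coeff_X_add_one_pow]
      positivity
    · exact le_refl _
  have h := Lam_ge d _ hdeg hnn
  have hpow : (m : ℝ) * 2 ^ (m - 1) * 2 = m * 2 ^ m := by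
    cases m with
    | zero => simp
    | succ k =>
      simp only [Nat.add_sub_cancel]
      rw [pow_succ]
      ring
  have he : 2 * (derivative (X ^ a * (X + 1) ^ m : ℝ[X])).eval 1
      - d * (X ^ a * (X + 1) ^ m : ℝ[X]).eval 1 = 2 ^ m * ((a : ℝ) - b) := by
    simp only [Polynomial.derivative_mul, Polynomial.derivative_pow,
      Polynomial.derivative_add, Polynomial.derivative_X, Polynomial.derivative_one,
      Polynomial.eval_add, Polynomial.eval_mul, Polynomial.eval_pow, Polynomial.eval_X,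
      Polynomial.eval_one, Polynomial.eval_C, one_pow, add_zero, mul_one,
      one_mul]
    have e2 : (1 + 1 : ℝ) = 2 := by norm_num
    rw [e2]
    have : (d : ℝ) = m + a + b := by rw [hmd]; ring
    rw [this]
    nlinarith [hpow]
  rw [he, abs_mul, abs_of_pos (by positivity : (0 : ℝ) < 2 ^ m)] at h
  exact h

/-- biased mass of a partition -/
theorem partition_mass_t {m : ℕ} (P Q : Fin m → Finset (Fin n))
    (hPQ : ∀ j, Disjoint (P j) (Q j)) (hpart : ∀ x, ∑ j, ind (P j) (Q j) x = 1) (t : ℝ) :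
    ∑ j, ((1 + t) / 2) ^ (P j).card * ((1 - t) / 2) ^ (Q j).card = 1 := by
  calc ∑ j, ((1 + t) / 2) ^ (P j).card * ((1 - t) / 2) ^ (Q j).card
      = ∑ j, ∑ x : Fin n → Bool, ind (P j) (Q j) x * wt t x := by
        apply Finset.sum_congr rfl
        intro j _
        rw [sum_ind_wt _ _ (hPQ j)]
    _ = ∑ x : Fin n → Bool, (∑ j, ind (P j) (Q j) x) * wt t x := by
        rw [Finset.sum_comm]
        apply Finset.sum_congr rfl
        intro x _
        rw [Finset.sum_mul]
    _ = 1 := by simp [hpart, sum_wt]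

theorem partition_poly {m : ℕ} (d : ℕ) (P Q : Fin m → Finset (Fin n))
    (hPQ : ∀ j, Disjoint (P j) (Q j)) (hw : ∀ j, (P j).card + (Q j).card ≤ d)
    (hpart : ∀ x, ∑ j, ind (P j) (Q j) x = 1) :
    ∑ j, (X ^ (P j).card * (X + 1) ^ (d - ((P j).card + (Q j).card)) : ℝ[X]) = (X + 1) ^ d := by
  apply Polynomial.eq_of_infinite_eval_eq
  apply Set.Infinite.mono _ (Set.Ioi_infinite (0 : ℝ))
  intro u hu
  have hu0 : (0 : ℝ) < u := hu
  have hu1 : (0 : ℝ) < u + 1 := by linarith
  have hmass := partition_mass_t P Q hPQ hpart ((u - 1) / (u + 1))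
  have e1 : (1 + (u - 1) / (u + 1)) / 2 = u / (u + 1) := by
    field_simp
    ring
  have e2 : (1 - (u - 1) / (u + 1)) / 2 = 1 / (u + 1) := by
    field_simp
    ring
  rw [e1, e2] at hmass
  simp only [Set.mem_ofPred_eq, Polynomial.eval_finsetSum, Polynomial.eval_mul,
    Polynomial.eval_pow, Polynomial.eval_X, Polynomial.eval_add, Polynomial.eval_one]
  calc ∑ j, u ^ (P j).card * (u + 1) ^ (d - ((P j).card + (Q j).card))
      = ∑ j, ((u / (u + 1)) ^ (P j).card * (1 / (u + 1)) ^ (Q j).card) * (u + 1) ^ d := by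
        apply Finset.sum_congr rfl
        intro j _
        have hsplit : (u + 1) ^ d = (u + 1) ^ (P j).card * (u + 1) ^ (Q j).card
            * (u + 1) ^ (d - ((P j).card + (Q j).card)) := by
          rw [← pow_add, ← pow_add, Nat.add_sub_cancel' (hw j)]
        rw [hsplit, div_pow, div_pow, one_pow]
        field_simp
    _ = (u + 1) ^ d := by rw [← Finset.sum_mul, hmass, one_mul]

/-- the sharp bound in binomial form -/
theorem partition_sharp {m : ℕ} (d : ℕ) (P Q : Fin m → Finset (Fin n))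
    (hPQ : ∀ j, Disjoint (P j) (Q j)) (hw : ∀ j, (P j).card + (Q j).card ≤ d)
    (hpart : ∀ x, ∑ j, ind (P j) (Q j) x = 1) :
    ∑ j, (1 / 2 : ℝ) ^ ((P j).card + (Q j).card) * |((P j).card : ℝ) - (Q j).card|
      ≤ (∑ R ∈ Finset.range (d + 1), (d.choose R : ℝ) * |2 * (R : ℝ) - d|) / 2 ^ d := by
  rw [← Lam_binom, ← partition_poly d P Q hPQ hw hpart, Lam_sum, le_div_iff₀ (by positivity),
    Finset.sum_mul]
  apply Finset.sum_le_sum
  intro j _
  refine le_trans (le_of_eq ?_) (Lam_term d (P j).card (Q j).card (hw j))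
  have hsplit : (2 : ℝ) ^ d = 2 ^ ((P j).card + (Q j).card)
      * 2 ^ (d - ((P j).card + (Q j).card)) := by
    rw [← pow_add, Nat.add_sub_cancel' (hw j)]
  rw [hsplit, one_div, inv_pow]
  field_simp

/-- bits versus subsets -/
def bitsEquiv (d : ℕ) : (Fin d → Bool) ≃ Finset (Fin d) where
  toFun y := Finset.univ.filter (fun i => y i = true)
  invFun S := fun i => decide (i ∈ S)
  left_inv y := by
    funext i
    simp
  right_inv S := by
    ext i
    simp

theorem cube_abs (d : ℕ) :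
    ∑ y : Fin d → Bool, |∑ i, (if y i then (1 : ℝ) else -1)|
      = ∑ R ∈ Finset.range (d + 1), (d.choose R : ℝ) * |2 * (R : ℝ) - d| := by
  have h1 : ∀ y : Fin d → Bool, ∑ i, (if y i then (1 : ℝ) else -1)
      = 2 * ((bitsEquiv d y).card : ℝ) - d := by
    intro y
    have : ∀ i, (if y i then (1 : ℝ) else -1) = 2 * (if y i = true then (1 : ℝ) else 0) - 1 := by
      intro i
      cases y i <;> norm_num
    simp_rw [this]
    rw [Finset.sum_sub_distrib, ← Finset.mul_sum, Finset.sum_boole]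
    simp [bitsEquiv]
  simp_rw [h1]
  rw [Fintype.sum_equiv (bitsEquiv d) (fun y => |2 * ((bitsEquiv d y).card : ℝ) - d|)
    (fun S => |2 * (S.card : ℝ) - d|) (fun y => rfl)]
  have h2 := Finset.sum_powerset_apply_card (fun r : ℕ => |2 * (r : ℝ) - d|)
    (x := (Finset.univ : Finset (Fin d)))
  rw [Finset.powerset_univ, Finset.card_univ, Fintype.card_fin] at h2
  rw [h2]
  apply Finset.sum_congr rfl
  intro R _
  rw [nsmul_eq_mul]

/-- Boolean form of the sharp subcube partition theorem -/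
theorem partition_sharp_bool {m : ℕ} (d : ℕ) (P Q : Fin m → Finset (Fin n)) (c : Fin m → ℝ)
    (f : (Fin n → Bool) → ℝ)
    (hPQ : ∀ j, Disjoint (P j) (Q j)) (hw : ∀ j, (P j).card + (Q j).card ≤ d)
    (hc : ∀ j, c j = 1 ∨ c j = -1)
    (hpart : ∀ x : Fin n → Bool, ∃! j, (∀ i ∈ P j, x i = true) ∧ (∀ i ∈ Q j, x i = false))
    (hconst : ∀ (x : Fin n → Bool) (j : Fin m),
      ((∀ i ∈ P j, x i = true) ∧ (∀ i ∈ Q j, x i = false)) → f x = c j) :
    ∑ i, fhat f {i} ≤ (∑ y : Fin d → Bool, |∑ i, (if y i then (1 : ℝ) else -1)|) / 2 ^ d := by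
  have hp1 : ∀ x, ∑ j, ind (P j) (Q j) x = 1 := by
    intro x
    obtain ⟨j0, h0, hu⟩ := hpart x
    have h1 := sum_mul_ind_of_unique (fun _ => (1 : ℝ)) P Q x j0 h0 (fun k hk => hu k hk)
    simpa using h1
  have hf : ∀ x, f x = 0 + ∑ j, c j * ind (P j) (Q j) x := by
    intro x
    obtain ⟨j0, h0, hu⟩ := hpart x
    rw [sum_mul_ind_of_unique c P Q x j0 h0 (fun k hk => hu k hk), zero_add]
    exact hconst x j0 h0
  rw [lev_affine 0 c P Q hPQ f hf, cube_abs]
  refine le_trans ?_ (partition_sharp d P Q hPQ hw hp1)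
  apply Finset.sum_le_sum
  intro j _
  have hp : (0 : ℝ) ≤ (1 / 2 : ℝ) ^ ((P j).card + (Q j).card) := by positivity
  have habs := le_abs_self (((P j).card : ℝ) - (Q j).card)
  have habs2 := neg_abs_le (((P j).card : ℝ) - (Q j).card)
  rcases hc j with h | h <;> rw [h]
  · rw [one_mul]
    exact mul_le_mul_of_nonneg_left habs hp
  · have : (-1 : ℝ) * ((1 / 2 : ℝ) ^ ((P j).card + (Q j).card) * (((P j).card : ℝ) - (Q j).card))
        = (1 / 2 : ℝ) ^ ((P j).card + (Q j).card) * (-(((P j).card : ℝ) - (Q j).card)) := by ring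
    rw [this]
    exact mul_le_mul_of_nonneg_left (by linarith) hp

end Vale.Agent.P047
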