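import Mathlib
import Vale.Agent.P047.Compose

namespace Vale.Agent.P047.Comp

open Finset

/-- the weak form of the conjecture with constant `C` -/
def Weak (C : ℝ) : Prop :=
  ∀ (n D : ℕ) (F : (Fin n → Bool) → ℝ), (∀ x, F x = 1 ∨ F x = -1) →
    (∀ S : Finset (Fin n), D < S.card →
      (∑ x : Fin n → Bool, F x * ∏ i ∈ S, (if x i then (1 : ℝ) else -1)) / 2 ^ n = 0) →
    ∑ i : Fin n, (∑ x : Fin n → Bool, F x * (if x i then (1 : ℝ) else -1)) / 2 ^ n
      ≤ C * Real.sqrt D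

section transfer

variable {κ : Type} [Fintype κ] [DecidableEq κ]

theorem transfer_key (ψ : (κ → Bool) → Bool) (S : Finset (Fin (Fintype.card κ))) :
    (∑ y : Fin (Fintype.card κ) → Bool, sg (ψ (fun k => y (Fintype.equivFin κ k)))
        * ∏ i ∈ S, (if y i then (1 : ℝ) else -1)) / 2 ^ Fintype.card κ
      = gh ψ (S.map (Fintype.equivFin κ).symm.toEmbedding) := by
  unfold gh
  congr 1
  rw [← ((Fintype.equivFin κ).arrowCongr (Equiv.refl Bool)).sum_comp]
  apply Finset.sum_congr rfl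
  intro x _
  rw [chi_eq, Finset.prod_map]
  congr 1
  · congr 2
    funext k
    simp [Equiv.arrowCongr]

theorem transfer (C : ℝ) (H : Weak C) (ψ : (κ → Bool) → Bool) (D : ℕ)
    (hdeg : ∀ T : Finset κ, D < T.card → gh ψ T = 0) : lv ψ ≤ C * Real.sqrt D := by
  have h := H (Fintype.card κ) D (fun y => sg (ψ (fun k => y (Fintype.equivFin κ k))))
    (fun y => by
      cases ψ (fun k => y (Fintype.equivFin κ k)) <;> simp [sg])
    (fun S hS => by
      rw [transfer_key]
      exact hdeg _ (by rw [Finset.card_map]; exact hS))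
  have h2 : ∀ i : Fin (Fintype.card κ),
      (∑ y : Fin (Fintype.card κ) → Bool, sg (ψ (fun k => y (Fintype.equivFin κ k)))
        * (if y i then (1 : ℝ) else -1)) / 2 ^ Fintype.card κ
      = gh ψ {(Fintype.equivFin κ).symm i} := by
    intro i
    have := transfer_key ψ {i}
    simp only [Finset.prod_singleton, Finset.map_singleton] at this
    exact this
  simp_rw [h2] at h
  rw [(Fintype.equivFin κ).symm.sum_comp (fun k => gh ψ {k})] at h
  exact h

end transfer

theorem le_sqrt_of_pow (C lam : ℝ) (d : ℕ)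
    (h : ∀ k : ℕ, lam ^ (k + 1) ≤ C * Real.sqrt ((d ^ (k + 1) : ℕ) : ℝ)) :
    lam ≤ Real.sqrt d := by
  by_contra hlt
  push Not at hlt
  have hpos : 0 < lam := lt_of_le_of_lt (Real.sqrt_nonneg _) hlt
  have hd : (d : ℝ) < lam ^ 2 := (Real.sqrt_lt' hpos).mp hlt
  have hsq : ∀ k : ℕ, (lam ^ 2) ^ (k + 1) ≤ C ^ 2 * (d : ℝ) ^ (k + 1) := by
    intro k
    have h1 := h k
    have h0 : 0 < lam ^ (k + 1) := by positivity
    have h2 : (lam ^ (k + 1)) ^ 2 ≤ (C * Real.sqrt ((d ^ (k + 1) : ℕ) : ℝ)) ^ 2 :=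
      pow_le_pow_left₀ h0.le h1 2
    rw [mul_pow, Real.sq_sqrt (by positivity)] at h2
    calc (lam ^ 2) ^ (k + 1) = (lam ^ (k + 1)) ^ 2 := by ring
      _ ≤ C ^ 2 * ((d ^ (k + 1) : ℕ) : ℝ) := h2
      _ = C ^ 2 * (d : ℝ) ^ (k + 1) := by push_cast; ring
  rcases Nat.eq_zero_or_pos d with h0 | h0
  · subst h0
    have := hsq 0
    simp at this
    nlinarith
  · have hd0 : (0 : ℝ) < d := by exact_mod_cast h0
    have hr : 1 < lam ^ 2 / d := by rw [lt_div_iff₀ hd0]; linarith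
    obtain ⟨m, hm⟩ := pow_unbounded_of_one_lt (C ^ 2) hr
    have h1 : (lam ^ 2 / d) ^ m ≤ (lam ^ 2 / d) ^ (m + 1) :=
      pow_le_pow_right₀ hr.le (Nat.le_succ m)
    have h2 : (lam ^ 2 / d) ^ (m + 1) ≤ C ^ 2 := by
      rw [div_pow, div_le_iff₀ (by positivity)]
      exact hsq m
    linarith

section main

variable {ι : Type} [Fintype ι] [DecidableEq ι]

theorem bal_bound (C : ℝ) (H : Weak C) (φ : (ι → Bool) → Bool) (hbal : gh φ ∅ = 0) (d : ℕ)
    (hdeg : ∀ S : Finset ι, d < S.card → gh φ S = 0) : lv φ ≤ Real.sqrt d := by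
  apply le_sqrt_of_pow C
  intro k
  obtain ⟨κ, hF, hD, ψ, _, h2, h3⟩ := iterate φ hbal d hdeg k
  rw [← h3]
  exact transfer C H ψ _ h2

theorem gen_bound (C : ℝ) (H : Weak C) (φ : (ι → Bool) → Bool) (d : ℕ)
    (hdeg : ∀ S : Finset ι, d < S.card → gh φ S = 0) :
    lv φ + |gh φ ∅| ≤ Real.sqrt ((d + 1 : ℕ) : ℝ) := by
  have h1 := bal_bound C H (odd true φ) (odd_bal _ _) (d + 1) (odd_deg true φ d hdeg)
  have h2 := bal_bound C H (odd false φ) (odd_bal _ _) (d + 1) (odd_deg false φ d hdeg)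
  rw [odd_lv] at h1 h2
  simp only [sg] at h1 h2
  rcases abs_cases (gh φ ∅) with ⟨h, _⟩ | ⟨h, _⟩ <;> rw [h]
  · simpa [add_comm] using h1
  · have : (if false = true then (1 : ℝ) else -1) = -1 := by simp
    rw [this] at h2
    linarith

end main

/-- the polynomial form of the weak conjecture: exponent `a`, constant `C` -/
def WeakPow (C a : ℝ) : Prop :=
  ∀ (n D : ℕ) (F : (Fin n → Bool) → ℝ), (∀ x, F x = 1 ∨ F x = -1) →
    (∀ S : Finset (Fin n), D < S.card →
      (∑ x : Fin n → Bool, F x * ∏ i ∈ S, (if x i then (1 : ℝ) else -1)) / 2 ^ n = 0) →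
    ∑ i : Fin n, (∑ x : Fin n → Bool, F x * (if x i then (1 : ℝ) else -1)) / 2 ^ n
      ≤ C * (D : ℝ) ^ a

theorem transferPow {κ : Type} [Fintype κ] [DecidableEq κ] (C a : ℝ) (H : WeakPow C a)
    (ψ : (κ → Bool) → Bool) (D : ℕ)
    (hdeg : ∀ T : Finset κ, D < T.card → gh ψ T = 0) : lv ψ ≤ C * (D : ℝ) ^ a := by
  have h := H (Fintype.card κ) D (fun y => sg (ψ (fun k => y (Fintype.equivFin κ k))))
    (fun y => by
      cases ψ (fun k => y (Fintype.equivFin κ k)) <;> simp [sg])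
    (fun S hS => by
      rw [transfer_key]
      exact hdeg _ (by rw [Finset.card_map]; exact hS))
  have h2 : ∀ i : Fin (Fintype.card κ),
      (∑ y : Fin (Fintype.card κ) → Bool, sg (ψ (fun k => y (Fintype.equivFin κ k)))
        * (if y i then (1 : ℝ) else -1)) / 2 ^ Fintype.card κ
      = gh ψ {(Fintype.equivFin κ).symm i} := by
    intro i
    have := transfer_key ψ {i}
    simp only [Finset.prod_singleton, Finset.map_singleton] at this
    exact this
  simp_rw [h2] at h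
  rw [(Fintype.equivFin κ).symm.sum_comp (fun k => gh ψ {k})] at h
  exact h

theorem le_rpow_of_pow (C a lam : ℝ) (d : ℕ)
    (h : ∀ k : ℕ, lam ^ (k + 1) ≤ C * (((d ^ (k + 1) : ℕ) : ℝ)) ^ a) :
    lam ≤ (d : ℝ) ^ a := by
  by_contra hlt
  push Not at hlt
  have ht0 : 0 ≤ (d : ℝ) ^ a := Real.rpow_nonneg (Nat.cast_nonneg d) a
  have hpos : 0 < lam := lt_of_le_of_lt ht0 hlt
  have hk : ∀ k : ℕ, lam ^ (k + 1) ≤ C * ((d : ℝ) ^ a) ^ (k + 1) := by
    intro k
    have := h k
    rw [Real.rpow_pow_comm (Nat.cast_nonneg d)]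
    push_cast at this
    exact this
  rcases ht0.eq_or_lt with h0 | h0
  · have := hk 0
    rw [← h0] at this
    simp at this
    linarith
  · have hr : 1 < lam / (d : ℝ) ^ a := by rw [lt_div_iff₀ h0]; linarith
    obtain ⟨m, hm⟩ := pow_unbounded_of_one_lt C hr
    have h1 : (lam / (d : ℝ) ^ a) ^ m ≤ (lam / (d : ℝ) ^ a) ^ (m + 1) :=
      pow_le_pow_right₀ hr.le (Nat.le_succ m)
    have h2 : (lam / (d : ℝ) ^ a) ^ (m + 1) ≤ C := by
      rw [div_pow, div_le_iff₀ (by positivity)]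
      exact hk m
    linarith

section mainPow

variable {ι : Type} [Fintype ι] [DecidableEq ι]

theorem bal_boundPow (C a : ℝ) (H : WeakPow C a) (φ : (ι → Bool) → Bool) (hbal : gh φ ∅ = 0)
    (d : ℕ) (hdeg : ∀ S : Finset ι, d < S.card → gh φ S = 0) : lv φ ≤ (d : ℝ) ^ a := by
  apply le_rpow_of_pow C
  intro k
  obtain ⟨κ, hF, hD, ψ, _, h2, h3⟩ := iterate φ hbal d hdeg k
  rw [← h3]
  exact transferPow C a H ψ _ h2

theorem gen_boundPow (C a : ℝ) (H : WeakPow C a) (φ : (ι → Bool) → Bool) (d : ℕ)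
    (hdeg : ∀ S : Finset ι, d < S.card → gh φ S = 0) :
    lv φ + |gh φ ∅| ≤ ((d + 1 : ℕ) : ℝ) ^ a := by
  have h1 := bal_boundPow C a H (odd true φ) (odd_bal _ _) (d + 1) (odd_deg true φ d hdeg)
  have h2 := bal_boundPow C a H (odd false φ) (odd_bal _ _) (d + 1) (odd_deg false φ d hdeg)
  rw [odd_lv] at h1 h2
  simp only [sg] at h1 h2
  rcases abs_cases (gh φ ∅) with ⟨h, _⟩ | ⟨h, _⟩ <;> rw [h]
  · simpa [add_comm] using h1
  · have : (if false = true then (1 : ℝ) else -1) = -1 := by simp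
    rw [this] at h2
    linarith

end mainPow

section real

variable {n : ℕ}

open Classical in
/-- bit valued version of a `±1` valued function -/
noncomputable def toB (f : (Fin n → Bool) → ℝ) : (Fin n → Bool) → Bool :=
  fun x => decide (f x = 1)

theorem sg_toB (f : (Fin n → Bool) → ℝ) (hf : ∀ x, f x = 1 ∨ f x = -1) (x : Fin n → Bool) :
    sg (toB f x) = f x := by
  unfold toB sg
  rcases hf x with h | h
  · simp [h]
  · rw [h]
    norm_num

theorem gh_toB (f : (Fin n → Bool) → ℝ) (hf : ∀ x, f x = 1 ∨ f x = -1) (S : Finset (Fin n)) :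
    gh (toB f) S = (∑ x : Fin n → Bool, f x * ∏ i ∈ S, (if x i then (1 : ℝ) else -1)) / 2 ^ n := by
  unfold gh
  rw [Fintype.card_fin]
  congr 1
  apply Finset.sum_congr rfl
  intro x _
  rw [sg_toB f hf, chi_eq]
  rfl

theorem lv_toB (f : (Fin n → Bool) → ℝ) (hf : ∀ x, f x = 1 ∨ f x = -1) :
    lv (toB f) = ∑ i : Fin n, (∑ x : Fin n → Bool, f x * (if x i then (1 : ℝ) else -1)) / 2 ^ n := by
  unfold lv
  apply Finset.sum_congr rfl
  intro i _
  rw [gh_toB f hf]
  simp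

theorem transfer_key' {κ : Type} [Fintype κ] [DecidableEq κ] {N : ℕ} (e : κ ≃ Fin N)
    (ψ : (κ → Bool) → Bool) (S : Finset (Fin N)) :
    (∑ y : Fin N → Bool, sg (ψ (fun k => y (e k)))
        * ∏ i ∈ S, (if y i then (1 : ℝ) else -1)) / 2 ^ N
      = gh ψ (S.map e.symm.toEmbedding) := by
  unfold gh
  have hN : Fintype.card κ = N := by rw [Fintype.card_congr e, Fintype.card_fin]
  rw [hN]
  congr 1
  rw [← (e.arrowCongr (Equiv.refl Bool)).sum_comp]
  apply Finset.sum_congr rfl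
  intro x _
  rw [chi_eq, Finset.prod_map]
  congr 1
  · congr 2
    funext k
    simp [Equiv.arrowCongr]

/-- composition of `±1` valued functions, the inner one balanced -/
theorem compose_real {m : ℕ} (d e : ℕ) (f : (Fin n → Bool) → ℝ) (g : (Fin m → Bool) → ℝ)
    (hf : ∀ x, f x = 1 ∨ f x = -1) (hg : ∀ x, g x = 1 ∨ g x = -1)
    (hdf : ∀ S : Finset (Fin n), d < S.card →
      (∑ x : Fin n → Bool, f x * ∏ i ∈ S, (if x i then (1 : ℝ) else -1)) / 2 ^ n = 0)
    (hdg : ∀ S : Finset (Fin m), e < S.card →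
      (∑ x : Fin m → Bool, g x * ∏ i ∈ S, (if x i then (1 : ℝ) else -1)) / 2 ^ m = 0)
    (hbal : (∑ x : Fin m → Bool, g x) / 2 ^ m = 0) :
    ∃ h : (Fin (n * m) → Bool) → ℝ, (∀ x, h x = 1 ∨ h x = -1) ∧
      (∀ S : Finset (Fin (n * m)), d * e < S.card →
        (∑ x : Fin (n * m) → Bool, h x * ∏ i ∈ S, (if x i then (1 : ℝ) else -1))
          / 2 ^ (n * m) = 0) ∧
      (∑ x : Fin (n * m) → Bool, h x) / 2 ^ (n * m) = (∑ x : Fin n → Bool, f x) / 2 ^ n ∧
      ∑ i : Fin (n * m), (∑ x : Fin (n * m) → Bool, h x * (if x i then (1 : ℝ) else -1))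
          / 2 ^ (n * m)
        = (∑ i : Fin n, (∑ x : Fin n → Bool, f x * (if x i then (1 : ℝ) else -1)) / 2 ^ n)
          * ∑ i : Fin m, (∑ x : Fin m → Bool, g x * (if x i then (1 : ℝ) else -1)) / 2 ^ m := by
  have hb : gh (toB g) ∅ = 0 := by
    rw [gh_toB g hg]
    simpa using hbal
  set ψ := comp (toB f) (toB g) with hψ
  set E : Fin n × Fin m ≃ Fin (n * m) := finProdFinEquiv with hE
  refine ⟨fun y => sg (ψ (fun k => y (E k))), ?_, ?_, ?_, ?_⟩
  · intro y
    show sg (ψ (fun k => y (E k))) = 1 ∨ sg (ψ (fun k => y (E k))) = -1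
    generalize ψ (fun k => y (E k)) = b
    cases b <;> simp [sg]
  · intro S hS
    rw [transfer_key' E ψ S]
    apply comp_deg (toB f) (toB g) hb d e
    · intro T hT
      rw [gh_toB f hf]
      exact hdf T hT
    · intro T hT
      rw [gh_toB g hg]
      exact hdg T hT
    · rw [Finset.card_map]
      exact hS
  · have h1 := transfer_key' E ψ ∅
    simp only [Finset.prod_empty, mul_one, Finset.map_empty] at h1
    rw [h1, hψ, comp_bal _ _ hb, gh_toB f hf]
    simp
  · have h2 : ∀ i : Fin (n * m),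
        (∑ y : Fin (n * m) → Bool, sg (ψ (fun k => y (E k)))
          * (if y i then (1 : ℝ) else -1)) / 2 ^ (n * m) = gh ψ {E.symm i} := by
      intro i
      have := transfer_key' E ψ {i}
      simp only [Finset.prod_singleton, Finset.map_singleton] at this
      exact this
    simp_rw [h2]
    rw [E.symm.sum_comp (fun k => gh ψ {k})]
    have h3 : ∑ k, gh ψ {k} = lv ψ := rfl
    rw [h3, hψ, comp_lv _ _ hb, lv_toB f hf, lv_toB g hg]

end real

end Vale.Agent.P047.Comp
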