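import Mathlib
import Vale.Agent.P047.Sharp
import Vale.Agent.P047.Offset

namespace Vale.Agent.P047

open Finset Polynomial

variable {n : ℕ}

theorem Lam_C_mul (d : ℕ) (w : ℝ) (p : ℝ[X]) : Lam d (C w * p) = w * Lam d p := by
  unfold Lam
  rw [Finset.mul_sum]
  apply Finset.sum_congr rfl
  intro R _
  rw [Polynomial.coeff_C_mul]
  ring

/-- biased mass of a weighted partition -/
theorem wpartition_mass_t {m : ℕ} (w : Fin m → ℝ) (P Q : Fin m → Finset (Fin n))
    (hPQ : ∀ j, Disjoint (P j) (Q j)) (hpart : ∀ x, ∑ j, w j * ind (P j) (Q j) x = 1) (t : ℝ) :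
    ∑ j, w j * (((1 + t) / 2) ^ (P j).card * ((1 - t) / 2) ^ (Q j).card) = 1 := by
  calc ∑ j, w j * (((1 + t) / 2) ^ (P j).card * ((1 - t) / 2) ^ (Q j).card)
      = ∑ j, ∑ x : Fin n → Bool, w j * ind (P j) (Q j) x * wt t x := by
        apply Finset.sum_congr rfl
        intro j _
        rw [← sum_ind_wt _ _ (hPQ j), Finset.mul_sum]
        apply Finset.sum_congr rfl
        intro x _
        ring
    _ = ∑ x : Fin n → Bool, (∑ j, w j * ind (P j) (Q j) x) * wt t x := by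
        rw [Finset.sum_comm]
        apply Finset.sum_congr rfl
        intro x _
        rw [Finset.sum_mul]
    _ = 1 := by simp [hpart, sum_wt]

theorem wpartition_poly {m : ℕ} (d : ℕ) (w : Fin m → ℝ) (P Q : Fin m → Finset (Fin n))
    (hPQ : ∀ j, Disjoint (P j) (Q j)) (hw : ∀ j, (P j).card + (Q j).card ≤ d)
    (hpart : ∀ x, ∑ j, w j * ind (P j) (Q j) x = 1) :
    ∑ j, (C (w j) * (X ^ (P j).card * (X + 1) ^ (d - ((P j).card + (Q j).card))) : ℝ[X])
      = (X + 1) ^ d := by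
  apply Polynomial.eq_of_infinite_eval_eq
  apply Set.Infinite.mono _ (Set.Ioi_infinite (0 : ℝ))
  intro u hu
  have hu0 : (0 : ℝ) < u := hu
  have hu1 : (0 : ℝ) < u + 1 := by linarith
  have hmass := wpartition_mass_t w P Q hPQ hpart ((u - 1) / (u + 1))
  have e1 : (1 + (u - 1) / (u + 1)) / 2 = u / (u + 1) := by
    field_simp
    ring
  have e2 : (1 - (u - 1) / (u + 1)) / 2 = 1 / (u + 1) := by
    field_simp
    ring
  rw [e1, e2] at hmass
  simp only [Set.mem_ofPred_eq, Polynomial.eval_finsetSum, Polynomial.eval_mul,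
    Polynomial.eval_pow, Polynomial.eval_X, Polynomial.eval_add, Polynomial.eval_one,
    Polynomial.eval_C]
  calc ∑ j, w j * (u ^ (P j).card * (u + 1) ^ (d - ((P j).card + (Q j).card)))
      = ∑ j, (w j * ((u / (u + 1)) ^ (P j).card * (1 / (u + 1)) ^ (Q j).card)) * (u + 1) ^ d := by
        apply Finset.sum_congr rfl
        intro j _
        have hsplit : (u + 1) ^ d = (u + 1) ^ (P j).card * (u + 1) ^ (Q j).card
            * (u + 1) ^ (d - ((P j).card + (Q j).card)) := by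
          rw [← pow_add, ← pow_add, Nat.add_sub_cancel' (hw j)]
        rw [hsplit, div_pow, div_pow, one_pow]
        field_simp
    _ = (u + 1) ^ d := by rw [← Finset.sum_mul, hmass, one_mul]

theorem wpartition_sharp {m : ℕ} (d : ℕ) (w : Fin m → ℝ) (hw0 : ∀ j, 0 ≤ w j)
    (P Q : Fin m → Finset (Fin n))
    (hPQ : ∀ j, Disjoint (P j) (Q j)) (hw : ∀ j, (P j).card + (Q j).card ≤ d)
    (hpart : ∀ x, ∑ j, w j * ind (P j) (Q j) x = 1) :
    ∑ j, w j * ((1 / 2 : ℝ) ^ ((P j).card + (Q j).card) * |((P j).card : ℝ) - (Q j).card|)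
      ≤ (∑ R ∈ Finset.range (d + 1), (d.choose R : ℝ) * |2 * (R : ℝ) - d|) / 2 ^ d := by
  rw [← Lam_binom, ← wpartition_poly d w P Q hPQ hw hpart, Lam_sum, le_div_iff₀ (by positivity),
    Finset.sum_mul]
  apply Finset.sum_le_sum
  intro j _
  rw [Lam_C_mul, mul_assoc]
  apply mul_le_mul_of_nonneg_left _ (hw0 j)
  refine le_trans (le_of_eq ?_) (Lam_term d (P j).card (Q j).card (hw j))
  have hsplit : (2 : ℝ) ^ d = 2 ^ ((P j).card + (Q j).card)
      * 2 ^ (d - ((P j).card + (Q j).card)) := by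
    rw [← pow_add, Nat.add_sub_cancel' (hw j)]
  rw [hsplit, one_div, inv_pow]
  field_simp

/-- second moment with offset -/
theorem sq_moment : ∀ (j : ℕ) (s : ℝ),
    ∑ y : Fin j → Bool, (s + ∑ i, sg (y i)) ^ 2 = (s ^ 2 + j) * 2 ^ j
  | 0, s => by simp
  | j + 1, s => by
    rw [sum_split _ 0]
    have h1 : ∀ (b : Bool) (y : Fin j → Bool),
        ∑ i, sg (((0 : Fin (j + 1)).insertNth b y : Fin (j + 1) → Bool) i)
          = sg b + ∑ i, sg (y i) := by
      intro b y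
      rw [Fin.sum_univ_succ]
      simp
    simp_rw [h1]
    have e1 : ∀ y : Fin j → Bool, (s + (sg true + ∑ i, sg (y i))) ^ 2
        = ((s + 1) + ∑ i, sg (y i)) ^ 2 := by
      intro y
      simp [sg]
      ring
    have e2 : ∀ y : Fin j → Bool, (s + (sg false + ∑ i, sg (y i))) ^ 2
        = ((s - 1) + ∑ i, sg (y i)) ^ 2 := by
      intro y
      simp [sg]
      ring
    simp_rw [e1, e2]
    rw [sq_moment j (s + 1), sq_moment j (s - 1), pow_succ]
    push_cast
    ring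

theorem B_le_sqrt (d : ℕ) :
    (∑ y : Fin d → Bool, |∑ i, (if y i then (1 : ℝ) else -1)|) / 2 ^ d ≤ Real.sqrt d := by
  apply Real.le_sqrt_of_sq_le
  have h1 := sq_moment d 0
  have h2 : (∑ y : Fin d → Bool, |∑ i, sg (y i)|) ^ 2
      ≤ (Finset.univ : Finset (Fin d → Bool)).card * ∑ y : Fin d → Bool, |∑ i, sg (y i)| ^ 2 :=
    sq_sum_le_card_mul_sum_sq
  have h3 : ((Finset.univ : Finset (Fin d → Bool)).card : ℝ) = 2 ^ d := by
    simp
  have h4 : ∑ y : Fin d → Bool, |∑ i, sg (y i)| ^ 2 = (d : ℝ) * 2 ^ d := by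
    simp_rw [sq_abs]
    have := h1
    simp only [zero_add] at this
    rw [this]
    ring
  rw [h3, h4] at h2
  rw [div_pow, div_le_iff₀ (by positivity)]
  have h5 : ∑ y : Fin d → Bool, |∑ i, (if y i then (1 : ℝ) else -1)|
      = ∑ y : Fin d → Bool, |∑ i, sg (y i)| := rfl
  rw [h5]
  calc (∑ y : Fin d → Bool, |∑ i, sg (y i)|) ^ 2 ≤ 2 ^ d * ((d : ℝ) * 2 ^ d) := h2
    _ = d * (2 ^ d) ^ 2 := by ring

/-- **Weighted subcube partitions** (two-sided conical junta degree). -/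
theorem wpartition_main {m : ℕ} (d : ℕ) (w c : Fin m → ℝ) (P Q : Fin m → Finset (Fin n))
    (f : (Fin n → Bool) → ℝ) (hw0 : ∀ j, 0 ≤ w j) (hc : ∀ j, |c j| ≤ 1)
    (hPQ : ∀ j, Disjoint (P j) (Q j)) (hw : ∀ j, (P j).card + (Q j).card ≤ d)
    (hpart : ∀ x, ∑ j, w j * ind (P j) (Q j) x = 1)
    (hf : ∀ x, f x = ∑ j, w j * c j * ind (P j) (Q j) x) :
    (∀ S : Finset (Fin n), d < S.card → fhat f S = 0) ∧
    ∑ i, fhat f {i} ≤ (∑ y : Fin d → Bool, |∑ i, (if y i then (1 : ℝ) else -1)|) / 2 ^ d := by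
  have hf' : ∀ x, f x = 0 + ∑ j, (w j * c j) * ind (P j) (Q j) x := by
    intro x
    rw [hf x, zero_add]
  refine ⟨fun S hS => deg_unamb d 0 (fun j => w j * c j) P Q hPQ hw f hf' S hS, ?_⟩
  rw [lev_affine 0 (fun j => w j * c j) P Q hPQ f hf', cube_abs]
  refine le_trans ?_ (wpartition_sharp d w hw0 P Q hPQ hw hpart)
  apply Finset.sum_le_sum
  intro j _
  rw [mul_assoc]
  apply mul_le_mul_of_nonneg_left _ (hw0 j)
  have hp : (0 : ℝ) ≤ (1 / 2 : ℝ) ^ ((P j).card + (Q j).card) := by positivity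
  have e : c j * ((1 / 2 : ℝ) ^ ((P j).card + (Q j).card) * (((P j).card : ℝ) - (Q j).card))
      = (1 / 2 : ℝ) ^ ((P j).card + (Q j).card) * (c j * (((P j).card : ℝ) - (Q j).card)) := by
    ring
  rw [e]
  apply mul_le_mul_of_nonneg_left _ hp
  calc c j * (((P j).card : ℝ) - (Q j).card) ≤ |c j * (((P j).card : ℝ) - (Q j).card)| :=
        le_abs_self _
    _ = |c j| * |((P j).card : ℝ) - (Q j).card| := abs_mul _ _
    _ ≤ 1 * |((P j).card : ℝ) - (Q j).card| :=
        mul_le_mul_of_nonneg_right (hc j) (abs_nonneg _)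
    _ = |((P j).card : ℝ) - (Q j).card| := one_mul _

end Vale.Agent.P047
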